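import Vale.Agent.P344.Reach

/-! Tensor products of matrices, layers and batches. -/

namespace Vale.Agent.P344

open Set
open scoped Kronecker

/-- Tensor product of a family of matrices. -/
def piM {ι : Type} [Fintype ι] {J K : ι → Type} (M : ∀ i, Matrix (J i) (K i) ℂ) :
    Matrix (∀ i, J i) (∀ i, K i) ℂ := fun x y => ∏ i, M i (x i) (y i)

theorem piM_mul {ι : Type} [Fintype ι] [DecidableEq ι] {J K L : ι → Type} [∀ i, Fintype (K i)]
    (M : ∀ i, Matrix (J i) (K i) ℂ) (N : ∀ i, Matrix (K i) (L i) ℂ) :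
    piM M * piM N = piM fun i => M i * N i := by
  ext x z
  simp only [piM, Matrix.mul_apply, ← Finset.prod_mul_distrib]
  rw [Finset.prod_univ_sum]
  simp

theorem piM_mon {ι : Type} [Fintype ι] [DecidableEq ι] {J K : ι → Type}
    [∀ i, DecidableEq (K i)] (f : ∀ i, J i → K i) (d : ∀ i, J i → ℂ) :
    piM (fun i => mon (f i) (d i)) = mon (fun x i => f i (x i)) (fun x => ∏ i, d i (x i)) := by
  ext x y
  simp only [piM, mon]
  split_ifs with h
  · exact Finset.prod_congr rfl fun i _ => by simp [← h]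
  · obtain ⟨i, hi⟩ := Function.ne_iff.1 h
    exact Finset.prod_eq_zero (Finset.mem_univ i) (by simp [hi])

theorem mon_id_one {J : Type} [DecidableEq J] : mon (id : J → J) (fun _ => (1 : ℂ)) = 1 := by
  ext x y
  simp [mon, Matrix.one_apply]

theorem piM_one {ι : Type} [Fintype ι] [DecidableEq ι] {J : ι → Type} [∀ i, DecidableEq (J i)] :
    piM (fun i => (1 : Matrix (J i) (J i) ℂ)) = 1 := by
  have := piM_mon (ι := ι) (J := J) (K := J) (fun _ => id) (fun _ _ => 1)
  simp only [mon_id_one, Finset.prod_const_one] at this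
  rw [this]
  exact mon_id_one

noncomputable def al : ℂ := (1 + Complex.I) / 2
noncomputable def be : ℂ := (1 - Complex.I) / 2

theorem al_add_be : al + be = 1 := by unfold al be; ring

theorem al_sub_be : al - be = Complex.I := by unfold al be; ring

/-- The layer attached to an involution `σ`. -/
noncomputable def lay {J : Type} [DecidableEq J] (σ : J → J) : Matrix J J ℂ :=
  fun x y => (if x = y then al else 0) + (if σ x = y then be else 0)

/-- The basic two by two matrix, a square root of the transposition. -/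
noncomputable def Cm : Matrix (ZMod 2) (ZMod 2) ℂ := lay (· + 1)

/-- Tensor powers of `Cm`. -/
noncomputable def Cpow (S : Type) [Fintype S] : Matrix (S → ZMod 2) (S → ZMod 2) ℂ :=
  piM fun _ => Cm

theorem app_embed {A A' B B' V : Type} [Fintype A] [Fintype B] [AddCommGroup V] [Module ℂ V]
    (M : Matrix A' A ℂ) (N : Matrix B' B ℂ) (φ : B → A) (hφ : Function.Injective φ)
    (a' : A') (b' : B') (h0 : ∀ a, a ∉ range φ → M a' a = 0)
    (h1 : ∀ b, M a' (φ b) = N b' b) (x : A → V) : app M x a' = app N (x ∘ φ) b' := by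
  unfold app
  symm
  refine Fintype.sum_of_injective φ hφ _ _ (fun a ha => by simp [h0 a ha]) fun b => by
    simp [h1]

theorem Cost.of_blocks {A A' R : Type} [Fintype A] [Fintype R] (M : Matrix A' A ℂ)
    (B B' : R → Type) [∀ r, Fintype (B r)] (N : ∀ r, Matrix (B' r) (B r) ℂ)
    (φ : ∀ r, B r → A) (c : R → ℕ) (hN : ∀ r, Cost (N r) (c r))
    (hφ : ∀ r, Function.Injective (φ r))
    (h : ∀ a', ∃ r b', (∀ a, a ∉ range (φ r) → M a' a = 0) ∧ ∀ b, M a' (φ r b) = N r b' b) :
    Cost M (∑ r, c r) := by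
  intro V _ _ x
  have h1 := Reach.iUnion (S := range x) c (fun r => range (app (N r) (x ∘ φ r))) fun r =>
    (hN r V (x ∘ φ r)).mono_left (range_comp_subset_range _ _)
  refine h1.mono_right ?_
  rintro _ ⟨a', rfl⟩
  obtain ⟨r, b', h0, h1⟩ := h a'
  exact mem_iUnion.2 ⟨r, b', (app_embed M (N r) (φ r) (hφ r) a' b' h0 h1 x).symm⟩

/-- All tensor powers of `Cm` with at most `r` factors cost at most `τ` gates per entry. -/
def Fast (r τ : ℕ) : Prop :=
  ∀ (S : Type) [Fintype S] [DecidableEq S], Fintype.card S ≤ r →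
    Cost (Cpow S) (2 ^ Fintype.card S * τ)

theorem zmod2_cases (a : ZMod 2) : a = 0 ∨ a = 1 := by revert a; decide

/-- A tensor product of at most `r` layers costs at most `τ` gates per entry. -/
theorem Fast.piM_lay {r τ : ℕ} (H : Fast r τ) {ι : Type} [Fintype ι] [DecidableEq ι]
    (hι : Fintype.card ι ≤ r) {J : ι → Type} [∀ i, Fintype (J i)] [∀ i, DecidableEq (J i)]
    (σ : ∀ i, J i → J i) (hσ : ∀ i, Function.Involutive (σ i)) :
    Cost (piM fun i => lay (σ i)) (Fintype.card (∀ i, J i) * τ) := by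
  classical
  let n : ∀ i, J i → ℕ := fun i x => (Fintype.equivFin (J i) x).val
  have hn : ∀ i, Function.Injective (n i) := fun i x y h =>
    (Fintype.equivFin (J i)).injective (Fin.ext h)
  let R : Type := ∀ i, {x : J i // n i x ≤ n i (σ i x)}
  let S : R → Type := fun ρ => {i : ι // σ i (ρ i).1 ≠ (ρ i).1}
  let φ : ∀ ρ : R, (S ρ → ZMod 2) → ∀ i, J i := fun ρ ε i =>
    if h : σ i (ρ i).1 ≠ (ρ i).1 then (if ε ⟨i, h⟩ = 0 then (ρ i).1 else σ i (ρ i).1)
    else (ρ i).1
  have hφS : ∀ (ρ : R) (ε : S ρ → ZMod 2) (i : S ρ),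
      φ ρ ε i.1 = if ε i = 0 then (ρ i.1).1 else σ i.1 (ρ i.1).1 := by
    intro ρ ε i
    simp only [φ]
    rw [dif_pos i.2]
  have hφN : ∀ (ρ : R) (ε : S ρ → ZMod 2) (i : ι), ¬ (σ i (ρ i).1 ≠ (ρ i).1) →
      φ ρ ε i = (ρ i).1 := by
    intro ρ ε i hi
    simp only [φ]
    rw [dif_neg hi]
  have hφor : ∀ (ρ : R) (ε : S ρ → ZMod 2) (i : ι),
      φ ρ ε i = (ρ i).1 ∨ φ ρ ε i = σ i (ρ i).1 := by
    intro ρ ε i
    by_cases hi : σ i (ρ i).1 ≠ (ρ i).1
    · rw [hφS ρ ε ⟨i, hi⟩]
      split_ifs <;> simp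
    · exact Or.inl (hφN ρ ε i hi)
  have hφ : ∀ ρ, Function.Injective (φ ρ) := by
    intro ρ ε ε' h
    funext i
    have h1 := congrFun h i.1
    rw [hφS, hφS] at h1
    have h2 := i.2
    rcases zmod2_cases (ε i) with h3 | h3 <;> rcases zmod2_cases (ε' i) with h4 | h4
    · rw [h3, h4]
    · rw [h3, h4, if_pos rfl, if_neg one_ne_zero] at h1
      exact absurd h1.symm h2
    · rw [h3, h4, if_pos rfl, if_neg one_ne_zero] at h1
      exact absurd h1 h2
    · rw [h3, h4]
  have hsurj : ∀ (ρ : R) (a : ∀ i, J i), (∀ i, a i = (ρ i).1 ∨ a i = σ i (ρ i).1) →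
      a ∈ range (φ ρ) := by
    intro ρ a ha
    obtain ⟨ε, hε⟩ : ∃ ε : S ρ → ZMod 2, ∀ i, ε i = if a i.1 = (ρ i.1).1 then 0 else 1 :=
      ⟨_, fun _ => rfl⟩
    refine ⟨ε, ?_⟩
    funext i
    by_cases hi : σ i (ρ i).1 ≠ (ρ i).1
    · refine (hφS ρ ε ⟨i, hi⟩).trans ?_
      rw [hε]
      rcases ha i with h | h
      · simp [h]
      · simp [h, hi]
    · refine (hφN ρ ε i hi).trans ?_
      rcases ha i with h | h
      · exact h.symm
      · rw [h]; exact (not_not.1 hi).symm
  have hcost := Cost.of_blocks (piM fun i => lay (σ i)) (fun ρ : R => S ρ → ZMod 2)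
    (fun ρ : R => S ρ → ZMod 2) (fun ρ => Cpow (S ρ)) φ
    (fun ρ => 2 ^ Fintype.card (S ρ) * τ)
    (fun ρ => H (S ρ) ((Fintype.card_subtype_le _).trans hι)) hφ (by
      intro a'
      let ρ : R := fun i => if h : n i (a' i) ≤ n i (σ i (a' i)) then ⟨a' i, h⟩
        else ⟨σ i (a' i), by rw [hσ i]; omega⟩
      have hρ : ∀ i, a' i = (ρ i).1 ∨ a' i = σ i (ρ i).1 := by
        intro i
        simp only [ρ]
        split_ifs with h
        · exact Or.inl rfl
        · exact Or.inr (hσ i _).symm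
      obtain ⟨ε, hε⟩ := hsurj ρ a' hρ
      refine ⟨ρ, ε, fun a ha => ?_, fun b => ?_⟩
      · by_contra hne
        apply ha
        apply hsurj
        intro i
        have h1 : lay (σ i) (a' i) (a i) ≠ 0 := fun h0 =>
          hne (Finset.prod_eq_zero (Finset.mem_univ i) h0)
        have h2 : a' i = a i ∨ σ i (a' i) = a i := by
          by_contra h3
          push Not at h3
          exact h1 (by simp [lay, h3.1, h3.2])
        rcases h2 with h2 | h2 <;> rcases hρ i with h3 | h3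
        · exact Or.inl (h2 ▸ h3)
        · exact Or.inr (h2 ▸ h3)
        · exact Or.inr (by rw [← h2, h3])
        · exact Or.inl (by rw [← h2, h3, hσ i])
      · rw [← hε]
        simp only [piM, Cpow]
        rw [← Fintype.prod_subtype_mul_prod_subtype (fun i => σ i (ρ i).1 ≠ (ρ i).1)]
        have e2 : ∏ i : {i : ι // ¬ (σ i (ρ i).1 ≠ (ρ i).1)},
            lay (σ i.1) (φ ρ ε i.1) (φ ρ b i.1) = 1 := by
          refine Finset.prod_eq_one fun i _ => ?_
          rw [hφN ρ ε i.1 i.2, hφN ρ b i.1 i.2]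
          have := not_not.1 i.2
          simp [lay, this, al_add_be]
        rw [e2, mul_one]
        refine Finset.prod_congr rfl fun i _ => ?_
        rw [hφS ρ ε i, hφS ρ b i]
        have h2 := i.2
        have h5 := hσ i.1 (ρ i.1).1
        have h6 : (1 : ZMod 2) + 1 = 0 := by decide
        rcases zmod2_cases (ε i) with h3 | h3 <;> rcases zmod2_cases (b i) with h4 | h4 <;>
          simp [lay, Cm, h3, h4, h2, h2.symm, h5, h6])
  refine hcost.mono ?_
  rw [← Finset.sum_mul]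
  refine Nat.mul_le_mul_right _ ?_
  have hcard : ∑ ρ : R, 2 ^ Fintype.card (S ρ) = Fintype.card (Σ ρ : R, (S ρ → ZMod 2)) := by
    simp [Fintype.card_sigma]
  rw [hcard]
  refine Fintype.card_le_of_injective (fun p => φ p.1 p.2) ?_
  rintro ⟨ρ, ε⟩ ⟨ρ', ε'⟩ h
  simp only at h
  have hρ : ρ = ρ' := by
    funext i
    apply Subtype.ext
    have h1 := congrFun h i
    have h2 := (ρ i).2
    have h3 := (ρ' i).2
    rcases hφor ρ ε i with h4 | h4 <;> rcases hφor ρ' ε' i with h5 | h5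
    · rw [← h4, ← h5, h1]
    · have h6 : (ρ i).1 = σ i (ρ' i).1 := by rw [← h4, ← h5, h1]
      apply hn i
      rw [h6, hσ i] at h2
      rw [h6]; omega
    · have h6 : (ρ' i).1 = σ i (ρ i).1 := by rw [← h4, ← h5, h1]
      apply hn i
      rw [h6, hσ i] at h3
      rw [h6]; omega
    · exact (hσ i).injective (by rw [← h4, ← h5, h1])
  subst hρ
  rw [hφ ρ h]

/-- Cost of applying `M` to a batch of inputs indexed by `μ`. -/
def BCost (μ : Type) {κ ι : Type} [Fintype ι] (M : Matrix κ ι ℂ) (s : ℕ) : Prop :=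
  ∀ (V : Type) [AddCommGroup V] [Module ℂ V] (x : μ → ι → V),
    Reach (⋃ a, range (x a)) s (⋃ a, range (app M (x a)))

theorem BCost.mono {μ κ ι : Type} [Fintype ι] {M : Matrix κ ι ℂ} {s t : ℕ} (h : BCost μ M s)
    (hst : s ≤ t) : BCost μ M t := fun V _ _ x => (h V x).mono_num hst

theorem Cost.batch {κ ι : Type} [Fintype ι] {M : Matrix κ ι ℂ} {s : ℕ} (h : Cost M s)
    (μ : Type) [Fintype μ] : BCost μ M (Fintype.card μ * s) := by
  intro V _ _ x
  exact Reach.iUnion_const s _ fun a => (h V (x a)).mono_left (subset_iUnion (fun a => range (x a)) a)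

theorem BCost.groups {ν κ ι : Type} [Fintype ι] [Fintype ν] {M : Matrix κ ι ℂ} {s : ℕ}
    (h : BCost ν M s) (μ : Type) [Fintype μ] (g : ℕ)
    (hg : Fintype.card μ ≤ g * Fintype.card ν) : BCost μ M (g * s) := by
  classical
  intro V _ _ x
  obtain ⟨e⟩ : Nonempty (μ ↪ Fin g × ν) :=
    Function.Embedding.nonempty_of_card_le (by simpa using hg)
  let y : Fin g × ν → ι → V := Function.extend e x 0
  have hy : ∀ a, y (e a) = x a := fun a => e.injective.extend_apply _ _ a
  have h1 := Reach.iUnion_const (S := ⋃ a, range (x a)) s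
    (fun c : Fin g => ⋃ b, range (app M (y (c, b)))) fun c => (h V fun b => y (c, b)).mono_left0 (by
      rintro _ ⟨_, ⟨b, rfl⟩, i, rfl⟩
      by_cases hb : ∃ a, e a = (c, b)
      · obtain ⟨a, ha⟩ := hb
        right
        simp only [← ha, hy]
        exact mem_iUnion.2 ⟨a, i, rfl⟩
      · left
        simp only [y]
        rw [Function.extend_apply' _ _ _ hb]
        rfl)
  rw [Fintype.card_fin] at h1
  refine h1.mono_right ?_
  rintro _ ⟨_, ⟨a, rfl⟩, k, rfl⟩
  refine mem_iUnion.2 ⟨(e a).1, mem_iUnion.2 ⟨(e a).2, k, ?_⟩⟩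
  simp [hy]

theorem Cost.kron {κ ι κ' ι' : Type} [Fintype ι] [Fintype ι'] {A : Matrix κ ι ℂ}
    {B : Matrix κ' ι' ℂ} {s t : ℕ} (hA : BCost κ' A s) (hB : BCost ι B t) :
    Cost (A ⊗ₖ B) (t + s) := by
  intro V _ _ x
  have h1 := hB V fun i i' => x (i, i')
  have h2 := hA V fun k' i => app B (fun i' => x (i, i')) k'
  refine ((h1.mono_left ?_).trans' (h2.mono_left ?_)).mono_right ?_
  · rintro _ ⟨_, ⟨a, rfl⟩, k, rfl⟩
    exact ⟨_, rfl⟩
  · rintro _ ⟨_, ⟨a, rfl⟩, k, rfl⟩
    exact mem_iUnion.2 ⟨k, a, rfl⟩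
  · rintro _ ⟨⟨k, k'⟩, rfl⟩
    refine mem_iUnion.2 ⟨k', k, ?_⟩
    simp [app, Fintype.sum_prod_type, Finset.smul_sum, smul_smul]

/-- A batch of `∏ ν i` copies of a tensor product is a tensor product of batches. -/
theorem BCost.of_piM {ι : Type} [Fintype ι] [DecidableEq ι] {ν J : ι → Type}
    [∀ i, Fintype (ν i)] [∀ i, DecidableEq (ν i)] [∀ i, Fintype (J i)]
    (M : ∀ i, Matrix (J i) (J i) ℂ) {s : ℕ}
    (h : Cost (piM fun i => (1 : Matrix (ν i) (ν i) ℂ) ⊗ₖ M i) s) :
    BCost (∀ i, ν i) (piM M) s := by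
  intro V _ _ x
  have h1 := h V fun p => x (fun i => (p i).1) (fun i => (p i).2)
  refine (h1.mono_left ?_).mono_right ?_
  · rintro _ ⟨p, rfl⟩
    exact mem_iUnion.2 ⟨_, _, rfl⟩
  · rintro _ ⟨_, ⟨a, rfl⟩, k, rfl⟩
    refine ⟨fun i => (a i, k i), ?_⟩
    refine app_embed _ (piM M) (fun (b : ∀ i, J i) i => (a i, b i)) ?_ _ k ?_ ?_ _
    · intro b b' hb
      funext i
      exact (Prod.ext_iff.1 (congrFun hb i)).2
    · intro p hp
      have : ∃ i, a i ≠ (p i).1 := by
        by_contra h2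
        push Not at h2
        exact hp ⟨fun i => (p i).2, funext fun i => Prod.ext (h2 i) rfl⟩
      obtain ⟨i, hi⟩ := this
      exact Finset.prod_eq_zero (Finset.mem_univ i) (by simp [hi])
    · intro b
      simp [piM]

theorem Cpow_equiv {S T : Type} [Fintype S] [Fintype T] (e : S ≃ T) :
    Cpow S = (Cpow T).submatrix (e.arrowCongr (Equiv.refl _)) (e.arrowCongr (Equiv.refl _)) := by
  ext x y
  simp only [Cpow, piM, Matrix.submatrix_apply]
  exact Fintype.prod_equiv e _ _ (by simp)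

theorem Cpow_sum (S T : Type) [Fintype S] [Fintype T] :
    Cpow (S ⊕ T) = (Cpow S ⊗ₖ Cpow T).submatrix (Equiv.sumArrowEquivProdArrow _ _ _)
      (Equiv.sumArrowEquivProdArrow _ _ _) := by
  ext x y
  simp [Cpow, piM, Fintype.prod_sum_type, Equiv.sumArrowEquivProdArrow]

theorem Cpow_prod (S T : Type) [Fintype S] [Fintype T] :
    Cpow (S × T) = (piM fun _ : S => Cpow T).submatrix (Equiv.curry _ _ _) (Equiv.curry _ _ _) := by
  ext x y
  simp [Cpow, piM, Fintype.prod_prod_type]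

end Vale.Agent.P344
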