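import Vale.Agent.P344.Network

/-! The design of three element subsets. -/

namespace Vale.Agent.P344

open Matrix

section Geometry

variable {H : Type} [Fintype H] [DecidableEq H]

theorem one_eq_sum_cols {O : Matrix H H (ZMod 2)} (hO : O * Oᵀ = 1) :
    (1 : Matrix H H (ZMod 2)) = ∑ q, sq (O *ᵥ Pi.single q 1) := by
  rw [← hO]
  ext i j
  simp [Matrix.mul_apply, Matrix.sum_apply, sq, vecMulVec_apply]

theorem sumSq_one : SumSq (1 : Matrix H H (ZMod 2)) (Fintype.card H) :=
  ⟨H, Finset.univ, fun q => (1 : Matrix H H (ZMod 2)) *ᵥ Pi.single q 1, le_rfl,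
    one_eq_sum_cols (by simp)⟩

/-- The reflection in an isotropic vector. -/
def refl2 (u : H → ZMod 2) : Matrix H H (ZMod 2) := 1 + vecMulVec u u

theorem refl2_mulVec (u x : H → ZMod 2) : refl2 u *ᵥ x = x + (u ⬝ᵥ x) • u := by
  rw [refl2, Matrix.add_mulVec, Matrix.one_mulVec, vecMulVec_mulVec]
  simp

theorem refl2_orth {u : H → ZMod 2} (hu : u ⬝ᵥ u = 0) : refl2 u * (refl2 u)ᵀ = 1 := by
  simp only [refl2, transpose_add, transpose_one, transpose_vecMulVec, Matrix.add_mul,
    Matrix.mul_add, Matrix.one_mul, Matrix.mul_one, vecMulVec_mul_vecMulVec, hu]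
  simp [add_assoc, add_self_mat]

theorem iso_add_single {t : H → ZMod 2} (ht : t ⬝ᵥ t = 1) {p : H} (hp : t p = 0) :
    (t + Pi.single p 1) ⬝ᵥ (t + Pi.single p 1) = 0 := by
  simp [add_dotProduct, dotProduct_add, ht, hp, zmod2_one_add_one]

theorem refl2_single {t : H → ZMod 2} {p : H} (hp : t p = 0) :
    refl2 (t + Pi.single p 1) *ᵥ Pi.single p 1 = t := by
  rw [refl2_mulVec]
  simp only [dotProduct_single, Pi.add_apply, hp, Pi.single_eq_same, zero_add, mul_one, one_smul]
  rw [add_comm t, ← add_assoc, add_self_zmod2, zero_add]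

theorem sumSq_one_add {t : H → ZMod 2} (ht : t ⬝ᵥ t = 1) {p : H} (hp : t p = 0) :
    SumSq (1 + sq t) (Fintype.card H - 1) := by
  refine ⟨H, Finset.univ.erase p, fun q => refl2 (t + Pi.single p 1) *ᵥ Pi.single q 1,
    by simp, ?_⟩
  have h := one_eq_sum_cols (refl2_orth (iso_add_single ht hp))
  rw [← Finset.add_sum_erase _ _ (Finset.mem_univ p), refl2_single hp] at h
  conv_lhs => rw [h]
  rw [add_right_comm, add_self_mat, zero_add]
  rfl

theorem sumSq_one_add_add {t t' : H → ZMod 2} (ht : t ⬝ᵥ t = 1) (ht' : t' ⬝ᵥ t' = 1)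
    (htt : t ⬝ᵥ t' = 0) {p q : H} (hpq : p ≠ q) (hp : t p = 0) (hp' : t' p = 0)
    (hq' : t' q = 0) : SumSq (1 + sq t + sq t') (Fintype.card H - 2) := by
  let O := refl2 (t + Pi.single p 1) * refl2 (t' + Pi.single q 1)
  have hO : O * Oᵀ = 1 := by
    simp only [O, transpose_mul]
    rw [Matrix.mul_assoc, ← Matrix.mul_assoc (refl2 (t' + Pi.single q 1)),
      refl2_orth (iso_add_single ht' hq'), Matrix.one_mul, refl2_orth (iso_add_single ht hp)]
  have e1 : O *ᵥ Pi.single p 1 = t := by
    simp only [O]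
    rw [← Matrix.mulVec_mulVec, refl2_mulVec (t' + Pi.single q 1)]
    simp only [dotProduct_single, Pi.add_apply, hp', Pi.single_eq_of_ne hpq, mul_one,
      zero_smul, add_zero]
    exact refl2_single hp
  have e2 : O *ᵥ Pi.single q 1 = t' := by
    simp only [O]
    rw [← Matrix.mulVec_mulVec, refl2_single hq', refl2_mulVec]
    simp [add_dotProduct, htt, hp']
  refine ⟨H, (Finset.univ.erase p).erase q, fun r => O *ᵥ Pi.single r 1, ?_, ?_⟩
  · rw [Finset.card_erase_of_mem (by simp [hpq.symm]), Finset.card_erase_of_mem (by simp)]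
    simp only [Finset.card_univ]
    omega
  · have h := one_eq_sum_cols hO
    rw [← Finset.add_sum_erase _ _ (Finset.mem_univ p), e1,
      ← Finset.add_sum_erase _ _ (show q ∈ Finset.univ.erase p by simp [hpq.symm]), e2] at h
    conv_lhs => rw [h]
    rw [add_right_comm (sq t), add_self_mat, zero_add, add_right_comm, add_self_mat, zero_add]
    rfl

end Geometry

/-- Three element subsets of a nineteen element set. -/
abbrev Tri : Type := {S : Finset (Fin 19) // S.card = 3}

theorem card_Tri : Fintype.card Tri = 969 := by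
  rw [Fintype.card_finset_len, Fintype.card_fin]
  rfl

def tv (S : Tri) : Fin 19 → ZMod 2 := fun i => if i ∈ S.1 then 1 else 0

noncomputable def tα (S : Tri) (r : Fin 19) : ℂ := (if r ∈ S.1 then 1 / 2 else 0) - 1 / 6

noncomputable def tβ (r : Fin 19) (S : Tri) : ℂ := if r ∈ S.1 then 1 else 0

theorem tv_dot (S S' : Tri) : tv S ⬝ᵥ tv S' = ((S.1 ∩ S'.1).card : ZMod 2) := by
  simp only [dotProduct, tv, ite_zero_mul_ite_zero, mul_one, ← Finset.mem_inter]
  rw [Finset.sum_ite_mem, Finset.univ_inter]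
  simp

theorem tαβ (S' S : Tri) : ∑ r, tα S' r * tβ r S = (((S.1 ∩ S'.1).card : ℂ) - 1) / 2 := by
  simp only [tα, tβ, mul_ite, mul_one, mul_zero]
  rw [Finset.sum_ite_mem, Finset.univ_inter, Finset.sum_sub_distrib, Finset.sum_ite_mem]
  simp only [Finset.sum_const, S.2, nsmul_eq_mul]
  push_cast
  ring

theorem tv_self (S : Tri) : tv S ⬝ᵥ tv S = 1 := by
  rw [tv_dot, Finset.inter_self, S.2]
  rfl

theorem exists_two_notMem (U : Finset (Fin 19)) (hU : U.card ≤ 6) :
    ∃ p q, p ≠ q ∧ p ∉ U ∧ q ∉ U := by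
  have h : 1 < Uᶜ.card := by
    rw [Finset.card_compl, Fintype.card_fin]
    omega
  obtain ⟨p, hp, q, hq, hpq⟩ := Finset.one_lt_card.1 h
  exact ⟨p, q, hpq, Finset.mem_compl.1 hp, Finset.mem_compl.1 hq⟩

theorem isDesign_tri : IsDesign tv tα tβ 17 where
  one := by simpa using sumSq_one (H := Fin 19)
  one_add S := by
    obtain ⟨p, q, -, hp, -⟩ := exists_two_notMem S.1 (by rw [S.2]; norm_num)
    simpa using sumSq_one_add (tv_self S) (p := p) (by simp [tv, hp])
  good S' S hc := by
    obtain ⟨p, q, hpq, hp, hq⟩ := exists_two_notMem (S.1 ∪ S'.1)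
      ((Finset.card_union_le _ _).trans (by rw [S.2, S'.2]))
    rw [Finset.mem_union, not_or] at hp hq
    have hd : tv S ⬝ᵥ tv S' = 0 := by
      rw [tv_dot]
      rw [corr, tαβ] at hc
      have h3 : (S.1 ∩ S'.1).card ≤ 3 := (Finset.card_le_card Finset.inter_subset_left).trans S.2.le
      have h4 : (S.1 ∩ S'.1).card = 3 ↔ S' = S := by
        constructor
        · intro h
          have e1 := Finset.eq_of_subset_of_card_le (Finset.inter_subset_left (s₁ := S.1)
            (s₂ := S'.1)) (by rw [h, S.2])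
          have e2 := Finset.eq_of_subset_of_card_le (Finset.inter_subset_right (s₁ := S.1)
            (s₂ := S'.1)) (by rw [h, S'.2])
          exact Subtype.ext (e2.symm.trans e1)
        · rintro rfl
          rw [Finset.inter_self, S'.2]
      generalize (S.1 ∩ S'.1).card = c at *
      interval_cases c
      · rfl
      · have : S' ≠ S := fun h => absurd (h4.2 h) (by norm_num)
        simp [this] at hc
      · rfl
      · rw [if_pos (h4.1 rfl)] at hc
        norm_num at hc
    simpa using sumSq_one_add_add (tv_self S) (tv_self S') hd hpq (by simp [tv, hp.1])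
      (by simp [tv, hp.2]) (by simp [tv, hq.2])

end Vale.Agent.P344
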