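import Mathlib

namespace Vale.Agent.P344

/-- The wires available after `s` gates of a circuit with `n` inputs: the constant `0`
(`inl none`), an input `x_k` (`inl (some k)`), or the value of one of the `s` gates (`inr i`). -/
abbrev Wire (n s : ℕ) : Type := Option (Fin n) ⊕ Fin s

/-- A gate computes `u + v`, `u - v` or `c u` (with a fixed complex `c`) from earlier wires. -/
inductive Gate (n s : ℕ) : Type
  | add (u v : Wire n s) : Gate n s
  | sub (u v : Wire n s) : Gate n s
  | smul (c : ℂ) (u : Wire n s) : Gate n s

/-- The value of a gate, given the values `w` of the earlier wires. -/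
def Gate.eval {n s : ℕ} (w : Wire n s → ℂ) : Gate n s → ℂ
  | Gate.add u v => w u + w v
  | Gate.sub u v => w u - w v
  | Gate.smul c u => c * w u

/-- A linear circuit with `n` inputs and exactly `s` gates, listed in a topological order. -/
inductive Circuit (n : ℕ) : ℕ → Type
  | nil : Circuit n 0
  | snoc {s : ℕ} (C : Circuit n s) (g : Gate n s) : Circuit n (s + 1)

/-- The values of the wires on input `x`, given the values `y` of the gates. -/
def wireVal {n s : ℕ} (x : Fin n → ℂ) (y : Fin s → ℂ) : Wire n s → ℂ
  | Sum.inl none => 0
  | Sum.inl (some k) => x k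
  | Sum.inr i => y i

/-- The values of the gates of a circuit on input `x`. -/
def Circuit.gateVal {n : ℕ} (x : Fin n → ℂ) : {s : ℕ} → Circuit n s → Fin s → ℂ
  | _, Circuit.nil => Fin.elim0
  | _, Circuit.snoc C g =>
      Fin.snoc (α := fun _ => ℂ) (C.gateVal x) (g.eval (wireVal x (C.gateVal x)))

/-- Some linear circuit with exactly `s` gates has designated outputs equal to `F_n x` for every
`x`, where `F_n = (ζ^(jk))` and `ζ = exp (2 π i / n)`. -/
def ComputesDFT (n s : ℕ) : Prop :=
  ∃ (C : Circuit n s) (out : Fin n → Wire n s), ∀ (x : Fin n → ℂ) (j : Fin n),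
    wireVal x (C.gateVal x) (out j) =
      ∑ k : Fin n, Complex.exp (2 * Real.pi * Complex.I / n) ^ (j.val * k.val) * x k

/-- `L n` is the least number of gates of a linear circuit computing the length `n` discrete
Fourier transform. -/
noncomputable def L (n : ℕ) : ℕ := sInf {s | ComputesDFT n s}

end Vale.Agent.P344
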