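import Vale.Agent.P344.InPlace

/-! Assembly of the fast transform for every length. -/

namespace Vale.Agent.P344

open Set Matrix
open scoped Kronecker

theorem Cost.submatrix_inj {κ κ' ι ι' : Type} [Fintype ι] [Fintype ι'] {M : Matrix κ ι ℂ} {s : ℕ}
    (h : Cost M s) (f : κ' → κ) (e : ι' → ι) (he : Function.Injective e) :
    Cost (M.submatrix f e) s := by
  intro V _ _ x
  refine ((h V (Function.extend e x 0)).mono_left0 ?_).mono_right ?_
  · rintro _ ⟨i, rfl⟩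
    by_cases hi : ∃ a, e a = i
    · obtain ⟨a, rfl⟩ := hi
      rw [he.extend_apply]
      exact Or.inr ⟨a, rfl⟩
    · rw [Function.extend_apply' _ _ _ hi]
      exact Or.inl rfl
  · rintro _ ⟨k, rfl⟩
    refine ⟨f k, ?_⟩
    simp only [app, Matrix.submatrix_apply]
    symm
    refine Fintype.sum_of_injective e he _ _ (fun i hi => ?_) fun a => ?_
    · rw [Function.extend_apply' _ _ _ hi]
      simp
    · rw [he.extend_apply]

theorem cost_dftFin {G : Type} [Fintype G] [DecidableEq G] [AddCommGroup G] {F : Matrix G G ℂ}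
    (hF : IsDFT F) {s : ℕ} (hs : Cost F s) {n : ℕ} (φ : Fin n → G)
    (hφ : ∀ j k j' k', φ j - φ k = φ j' - φ k' → (j.val : ℤ) - k.val = j'.val - k'.val) :
    Cost (dftFin n) (2 * n + Fintype.card G + 2 * s) := by
  obtain ⟨d, hd⟩ := hF.bluestein Fin.val (chirp_ne_zero n) φ hφ
  have hinj : Function.Injective fun k => -φ k := neg_injective.comp fun j k h => by
    have := hφ j k k k (by rw [h])
    exact Fin.ext (by omega)
  have e : dftFin n = (mon φ fun j : Fin n => chirp n ^ (j.val ^ 2)) *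
      (F * ((mon id d : Matrix G G ℂ) * (F.submatrix id (fun k : Fin n => -φ k) *
        (mon id fun k : Fin n => chirp n ^ (k.val ^ 2)) : Matrix G (Fin n) ℂ) :
          Matrix G (Fin n) ℂ) : Matrix G (Fin n) ℂ) := by
    ext j k
    have e1 : ∀ l, (F.submatrix id (fun k : Fin n => -φ k) *
        (mon id fun k : Fin n => chirp n ^ (k.val ^ 2)) : Matrix G (Fin n) ℂ) l k = F l (-φ k) * chirp n ^ (k.val ^ 2) :=
      fun l => by simp [Matrix.mul_apply, mon]
    rw [mon_mul_apply, Matrix.mul_apply]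
    simp only [mon_mul_apply, e1, id]
    rw [dftFin, ← ζ, ← chirp_sq, hd, mul_assoc, Finset.sum_mul]
    simp only [mul_assoc]
  rw [e]
  refine ((Cost.mon _ _).mul (hs.mul ((Cost.mon _ _).mul
    ((hs.submatrix_inj _ _ hinj).mul (Cost.mon _ _))))).mono (le_of_eq ?_)
  simp only [Fintype.card_fin]
  ring

/-- The prime power factors of `B`. -/
def pq (B : ℕ) (p : B.primeFactors) : ℕ := p.1 ^ B.factorization p.1

instance pq_neZero (B : ℕ) (p : B.primeFactors) : NeZero (pq B p) :=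
  ⟨pow_ne_zero _ (Nat.prime_of_mem_primeFactors p.2).ne_zero⟩

theorem prod_pq {B : ℕ} (hB : B ≠ 0) : ∏ p, pq B p = B := by
  have := Nat.prod_factorization_pow_eq_self hB
  rw [Finsupp.prod, Nat.support_factorization] at this
  rw [← Finset.prod_coe_sort] at this
  exact this

theorem le_pq (B : ℕ) (p : B.primeFactors) : p.1 ≤ pq B p := by
  have h : p.1 ∈ B.factorization.support := p.2
  exact Nat.le_self_pow (Finsupp.mem_support_iff.1 h) _

theorem dvd_of_pq {B : ℕ} (hB : B ≠ 0) {m : ℤ} (h : ∀ p, (pq B p : ℤ) ∣ m) : (B : ℤ) ∣ m := by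
  rw [← prod_pq hB, Nat.cast_prod]
  refine Finset.prod_dvd_of_coprime (fun p _ p' _ hpp => ?_) fun p _ => h p
  rw [Function.onFun, Nat.isCoprime_iff_coprime]
  exact Nat.coprime_pow_primes _ _ (Nat.prime_of_mem_primeFactors p.2)
    (Nat.prime_of_mem_primeFactors p'.2) fun e => hpp (Subtype.ext e)

theorem six_pow_le {B : ℕ} (hB : B ≠ 0) : 6 ^ Fintype.card B.primeFactors ≤ 6 ^ 6 * B := by
  have h1 : 6 ^ Fintype.card B.primeFactors ≤
      ∏ p : B.primeFactors, (if p.1 < 6 then 6 else 1) * pq B p := by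
    rw [← Finset.card_univ, ← Finset.prod_const]
    refine Finset.prod_le_prod' fun p _ => ?_
    have h2 := le_pq B p
    have h3 := NeZero.pos (pq B p)
    split_ifs <;> omega
  rw [Finset.prod_mul_distrib, prod_pq hB, Finset.prod_ite, Finset.prod_const_one, mul_one,
    Finset.prod_const] at h1
  refine h1.trans (Nat.mul_le_mul_right _ (Nat.pow_le_pow_right (by norm_num) ?_))
  have := Finset.card_le_card_of_injOn (s := Finset.univ.filter fun p : B.primeFactors => p.1 < 6)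
    (t := Finset.range 6) (fun p => p.1) (fun p hp => by simpa using hp)
    fun p _ p' _ h => Subtype.ext h
  simpa using this

theorem cost_of_modulus {B y τ : ℕ} (hB : B ≠ 0) (hy : ∀ p, pq B p ≤ y) (H : Fast (y + 1) τ)
    {n β : ℕ} (hn : n ≤ β * β) (hβ : 2 * β ≤ B) :
    Cost (dftFin n) (2 * n + B * B +
      4 * (1 + 6 ^ 6) * (B * B) * ((144 * Nat.clog 2 (2 * y) + 216) * (τ + 1) + 1)) := by
  have hr : Fintype.card B.primeFactors ≤ y + 1 := by
    rw [Fintype.card_coe, ← Finset.card_range (y + 1)]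
    refine Finset.card_le_card fun p hp => Finset.mem_range.2 ?_
    have := (le_pq B ⟨p, hp⟩).trans (hy _)
    simp only at this
    omega
  have hG : Fintype.card (∀ p, ZMod (pq B p)) = B := by
    simp only [Fintype.card_pi, ZMod.card, prod_pq hB]
  have h1 := BCost.of_piM _ (H.piM_layFn hr _ fun p => six_copies' (hy p))
  obtain ⟨R, hR⟩ : ∃ R, R = 6 ^ Fintype.card B.primeFactors := ⟨_, rfl⟩
  have hR0 : 0 < R := by rw [hR]; positivity
  have hR1 : R ≤ 6 ^ 6 * B := hR ▸ six_pow_le hB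
  have h2 := h1.groups (∀ p, ZMod (pq B p)) (B / R + 1) (by
    rw [hG]
    simp only [Fintype.card_pi, Fintype.card_fin, Finset.prod_const, Finset.card_univ, ← hR]
    rw [mul_comm]
    exact (Nat.lt_mul_div_succ B hR0).le)
  have hc : Fintype.card (∀ p, Fin 6 × ZMod (pq B p)) = R * B := by
    simp only [Fintype.card_pi, Fintype.card_prod, Fintype.card_fin, ZMod.card,
      Finset.prod_mul_distrib, prod_pq hB, hR, Finset.prod_const, Finset.card_univ]
  rw [hc] at h2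
  have h3 := Cost.kron h2 h2
  have hF : IsDFT (piM fun p => Fz (pq B p)) := IsDFT.piM fun p => isDFT_Fz _
  have hcast : ∀ a b a' b' : ℕ, a < β → b < β → a' < β → b' < β →
      ((a : ∀ p, ZMod (pq B p)) - b = a' - b') → (a : ℤ) - b = a' - b' := by
    intro a b a' b' ha hb ha' hb' h
    refine natCast_sub_inj (M := B) (by omega) (by omega) (by omega) (by omega)
      (dvd_of_pq hB fun p => ?_)
    rw [← ZMod.intCast_zmod_eq_zero_iff_dvd]
    push_cast
    exact sub_eq_zero.2 (congrFun h p)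
  have h4 := cost_dftFin (hF.kron hF) h3 (n := n)
    (fun j => (((j.val % β : ℕ) : ∀ p, ZMod (pq B p)), ((j.val / β : ℕ) : ∀ p, ZMod (pq B p))))
    (fun j k j' k' h => by
      have hβ0 : 0 < β := Nat.pos_of_ne_zero fun h0 => by
        have := j.2
        simp [h0] at hn
        omega
      have hd : ∀ i : Fin n, i.val / β < β := fun i =>
        Nat.div_lt_of_lt_mul (i.2.trans_le hn)
      have e1 := hcast _ _ _ _ (Nat.mod_lt _ hβ0) (Nat.mod_lt _ hβ0) (Nat.mod_lt _ hβ0)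
        (Nat.mod_lt _ hβ0) (congrArg Prod.fst h)
      have e2 := hcast _ _ _ _ (hd _) (hd _) (hd _) (hd _) (congrArg Prod.snd h)
      have e3 : ∀ i : Fin n, (i.val : ℤ) = β * ((i.val / β : ℕ) : ℤ) + ((i.val % β : ℕ) : ℤ) :=
        fun i => by exact_mod_cast (Nat.div_add_mod i.val β).symm
      rw [e3 j, e3 k, e3 j', e3 k']
      linear_combination e1 + β * e2)
  refine h4.mono ?_
  rw [Fintype.card_prod, hG]
  generalize (144 * Nat.clog 2 (2 * y) + 216) * (τ + 1) + 1 = X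
  have h5 : (B / R + 1) * R ≤ (1 + 6 ^ 6) * B := by
    have := Nat.div_mul_le_self B R
    rw [add_mul, add_mul]
    omega
  calc 2 * n + B * B + 2 * ((B / R + 1) * (R * B * X) + (B / R + 1) * (R * B * X))
      = 2 * n + B * B + 4 * ((B / R + 1) * R) * B * X := by ring
    _ ≤ 2 * n + B * B + 4 * ((1 + 6 ^ 6) * B) * B * X := by gcongr
    _ = _ := by ring

theorem centralBinom_succ_ge (y : ℕ) : 2 * y.centralBinom ≤ (y + 1).centralBinom := by
  have h := Nat.succ_mul_centralBinom_succ y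
  refine Nat.le_of_mul_le_mul_left (c := y + 1) ?_ (by omega)
  rw [h]
  nlinarith [Nat.zero_le (y * y.centralBinom)]

theorem centralBinom_succ_le (y : ℕ) : (y + 1).centralBinom ≤ 4 * y.centralBinom := by
  have h := Nat.succ_mul_centralBinom_succ y
  refine Nat.le_of_mul_le_mul_left (c := y + 1) ?_ (by omega)
  rw [h]
  nlinarith [Nat.zero_le (y * y.centralBinom), Nat.zero_le y.centralBinom]

theorem two_pow_le_centralBinom' (y : ℕ) : 2 ^ y ≤ y.centralBinom := by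
  induction y with
  | zero => simp
  | succ y ih =>
    have := centralBinom_succ_ge y
    rw [pow_succ]
    omega

theorem exists_modulus {n : ℕ} (hn : 2 ≤ n) : ∃ z : ℕ, 2 ^ z < n ∧
    n ≤ (z + 1).centralBinom * (z + 1).centralBinom ∧
      (z + 2).centralBinom * (z + 2).centralBinom ≤ 256 * n := by
  have hex : ∃ y : ℕ, n ≤ y.centralBinom * y.centralBinom :=
    ⟨n, (Nat.lt_two_pow_self.le.trans (two_pow_le_centralBinom' n)).trans (Nat.le_mul_self _)⟩
  have h1 := Nat.find_spec hex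
  have h0 : Nat.find hex ≠ 0 := fun h => by
    rw [h] at h1
    simp at h1
    omega
  obtain ⟨z, hz⟩ := Nat.exists_eq_succ_of_ne_zero h0
  have h2 := Nat.find_min hex (m := z) (by omega)
  rw [hz] at h1
  push Not at h2
  refine ⟨z, ?_, h1, ?_⟩
  · exact ((two_pow_le_centralBinom' z).trans (Nat.le_mul_self _)).trans_lt h2
  · have h3 := centralBinom_succ_le z
    have h4 := centralBinom_succ_le (z + 1)
    have h5 : (z + 2).centralBinom ≤ 16 * z.centralBinom := by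
      have : (z + 2).centralBinom = (z + 1 + 1).centralBinom := rfl
      omega
    nlinarith [Nat.mul_le_mul h5 h5]

theorem main_cost : ∃ K : ℝ, ∀ n : ℕ, 2 ≤ n → ∃ s : ℕ, Cost (dftFin n) s ∧
    (s : ℝ) ≤ K * n * Real.logb 2 n ^ (1 - 4 / 10 ^ 8 : ℝ) := by
  obtain ⟨K, hK, H⟩ := exists_fast
  obtain ⟨ε, hε⟩ : ∃ ε : ℝ, ε = 1 / 10 ^ 8 := ⟨_, rfl⟩
  have hε0 : 0 < ε := by rw [hε]; norm_num
  have hε1 : ε ≤ 1 := by rw [hε]; norm_num
  have hγ : (0 : ℝ) ≤ γ₀ := by norm_num [γ₀]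
  have hγ1 : γ₀ ≤ 1 := by norm_num [γ₀]
  obtain ⟨C₁, hC₁⟩ : ∃ C₁ : ℝ, C₁ = 144 * (1 + 2 * (12 / ε)) + 216 := ⟨_, rfl⟩
  have hC₁0 : 0 ≤ C₁ := by rw [hC₁]; positivity
  refine ⟨258 + 4 * (1 + 6 ^ 6) * 256 * (C₁ * (8 * K + 2) + 1), fun n hn => ?_⟩
  obtain ⟨z, hz1, hz2, hz3⟩ := exists_modulus hn
  have hc := cost_of_modulus (B := (z + 2).centralBinom) (y := 2 * (z + 2))
    (Nat.centralBinom_ne_zero _) (fun p => Nat.pow_factorization_choose_le (by omega)) (H _) hz2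
    (centralBinom_succ_ge (z + 1))
  refine ⟨_, hc, ?_⟩
  obtain ⟨l, hl⟩ : ∃ l : ℝ, l = Real.logb 2 n := ⟨_, rfl⟩
  rw [← hl]
  have hn2 : (2 : ℝ) ≤ n := by exact_mod_cast hn
  have hl1 : 1 ≤ l := by
    rw [hl, Real.le_logb_iff_rpow_le (by norm_num) (by linarith)]
    simpa using hn2
  have hzl : (z : ℝ) ≤ l := by
    rw [hl, Real.le_logb_iff_rpow_le (by norm_num) (by linarith), Real.rpow_natCast]
    exact_mod_cast hz1.le
  have hlε : 1 ≤ l ^ ε := Real.one_le_rpow hl1 hε0.le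
  have hlγ : 1 ≤ l ^ γ₀ := Real.one_le_rpow hl1 hγ
  have hτ : ((⌈K * (((2 * (z + 2) + 1 : ℕ) : ℝ) + 1) ^ γ₀⌉₊ : ℕ) : ℝ) + 1 ≤
      (8 * K + 2) * l ^ γ₀ := by
    have h1 := (Nat.ceil_lt_add_one (a := K * (((2 * (z + 2) + 1 : ℕ) : ℝ) + 1) ^ γ₀)
      (by positivity)).le
    have h2 : (((2 * (z + 2) + 1 : ℕ) : ℝ) + 1) ^ γ₀ ≤ (8 * l) ^ γ₀ := by
      gcongr
      push_cast
      linarith
    have h3 : (8 * l) ^ γ₀ ≤ 8 * l ^ γ₀ := by
      rw [Real.mul_rpow (by norm_num) (by linarith)]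
      gcongr
      exact (Real.rpow_le_rpow_of_exponent_le (by norm_num) hγ1).trans (by norm_num)
    have h4 := mul_le_mul_of_nonneg_left (h2.trans h3) hK
    linarith
  have hD : ((144 * Nat.clog 2 (2 * (2 * (z + 2))) + 216 : ℕ) : ℝ) ≤ C₁ * l ^ ε := by
    obtain ⟨m, hm⟩ : ∃ m, m = 2 * (2 * (z + 2)) := ⟨_, rfl⟩
    rw [← hm]
    have hm1 : 1 < m := by omega
    have hm2 : (m : ℝ) ≤ 12 * l := by
      rw [hm]
      push_cast
      linarith
    have h3 := Nat.pow_pred_clog_lt_self (b := 2) one_lt_two hm1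
    have h4 := Nat.clog_pos (b := 2) one_lt_two hm1
    obtain ⟨s, hs⟩ : ∃ s, Nat.clog 2 m = s + 1 := ⟨_, (Nat.succ_pred_eq_of_pos h4).symm⟩
    rw [hs] at h3 ⊢
    simp only [Nat.pred_succ] at h3
    have h5 : (s : ℝ) * Real.log 2 ≤ Real.log (12 * l) := by
      rw [← Real.log_pow]
      refine Real.log_le_log (by positivity) (le_trans ?_ hm2)
      exact_mod_cast h3.le
    have h6 : Real.log (12 * l) ≤ (12 * l) ^ ε / ε := Real.log_le_rpow_div (by linarith) hε0
    have h7 : (12 * l) ^ ε ≤ 12 * l ^ ε := by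
      rw [Real.mul_rpow (by norm_num) (by linarith)]
      gcongr
      exact (Real.rpow_le_rpow_of_exponent_le (by norm_num) hε1).trans (by norm_num)
    have h8 : (12 * l) ^ ε / ε ≤ 12 / ε * l ^ ε := by
      rw [div_mul_eq_mul_div]
      gcongr
    have h9 := Real.log_two_gt_d9
    have h10 : (s : ℝ) * (1 / 2) ≤ s * Real.log 2 := by gcongr; linarith
    rw [hC₁]
    push_cast
    nlinarith
  have hpow : l ^ (1 - 4 / 10 ^ 8 : ℝ) = l ^ ε * l ^ γ₀ := by
    rw [← Real.rpow_add (by linarith), hε, γ₀]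
    norm_num
  have hB : (((z + 2).centralBinom : ℝ) * (z + 2).centralBinom) ≤ 256 * n := by exact_mod_cast hz3
  rw [hpow]
  generalize ⌈K * (((2 * (z + 2) + 1 : ℕ) : ℝ) + 1) ^ γ₀⌉₊ = τ at *
  generalize 144 * Nat.clog 2 (2 * (2 * (z + 2))) + 216 = D at *
  push_cast
  have hY : 1 ≤ l ^ ε * l ^ γ₀ := one_le_mul_of_one_le_of_one_le hlε hlγ
  have h1 : (D : ℝ) * (τ + 1) ≤ (C₁ * l ^ ε) * ((8 * K + 2) * l ^ γ₀) := by gcongr
  have h2 : (D : ℝ) * (τ + 1) + 1 ≤ (C₁ * (8 * K + 2) + 1) * (l ^ ε * l ^ γ₀) := by nlinarith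
  have h3 : 4 * (1 + 6 ^ 6) * (((z + 2).centralBinom : ℝ) * (z + 2).centralBinom) *
      ((D : ℝ) * (τ + 1) + 1) ≤
      4 * (1 + 6 ^ 6) * (256 * n) * ((C₁ * (8 * K + 2) + 1) * (l ^ ε * l ^ γ₀)) := by gcongr
  have h4 : 258 * (n : ℝ) * 1 ≤ 258 * n * (l ^ ε * l ^ γ₀) := by gcongr
  nlinarith

theorem main_bound : ∃ K : ℝ, ∀ n : ℕ, 2 ≤ n → ComputesDFT n (L n) ∧
    (L n : ℝ) ≤ K * n * Real.logb 2 n ^ (1 - 4 / 10 ^ 8 : ℝ) := by
  obtain ⟨K, hK⟩ := main_cost
  refine ⟨K, fun n hn => ?_⟩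
  obtain ⟨s, hs, hle⟩ := hK n hn
  obtain ⟨t, ht, hc⟩ := computesDFT_of_cost hs
  refine ⟨Nat.sInf_mem (s := {s | ComputesDFT n s}) ⟨t, hc⟩, le_trans ?_ hle⟩
  exact_mod_cast (Nat.sInf_le (s := {s | ComputesDFT n s}) hc).trans ht

theorem not_lower_bound :
    ¬ ∃ c : ℝ, 0 < c ∧ ∀ᶠ n : ℕ in Filter.atTop, c * n * Real.logb 2 n ≤ L n := by
  rintro ⟨c, hc, h⟩
  obtain ⟨K, hK⟩ := main_bound
  have ht : Filter.Tendsto (fun n : ℕ => Real.logb 2 n ^ (4 / 10 ^ 8 : ℝ)) Filter.atTop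
      Filter.atTop :=
    (tendsto_rpow_atTop (by norm_num)).comp
      ((Real.tendsto_logb_atTop (by norm_num)).comp tendsto_natCast_atTop_atTop)
  obtain ⟨n, h1, h2, h3⟩ :=
    (h.and ((ht.eventually_gt_atTop (K / c)).and (Filter.eventually_ge_atTop 2))).exists
  have hn2 : (2 : ℝ) ≤ n := by exact_mod_cast h3
  have hl : 0 < Real.logb 2 n := Real.logb_pos (by norm_num) (by linarith)
  have h4 := h1.trans (hK n h3).2
  have e : Real.logb 2 n = Real.logb 2 n ^ (4 / 10 ^ 8 : ℝ) *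
      Real.logb 2 n ^ (1 - 4 / 10 ^ 8 : ℝ) := by
    rw [← Real.rpow_add hl]
    norm_num
  have hp : 0 < Real.logb 2 n ^ (1 - 4 / 10 ^ 8 : ℝ) := Real.rpow_pos_of_pos hl _
  rw [div_lt_iff₀ hc] at h2
  generalize Real.logb 2 n ^ (1 - 4 / 10 ^ 8 : ℝ) = Y at *
  generalize Real.logb 2 n ^ (4 / 10 ^ 8 : ℝ) = X at *
  rw [e] at h4
  have h5 : K * (n * Y) < X * c * (n * Y) := mul_lt_mul_of_pos_right h2 (by positivity)
  nlinarith

end Vale.Agent.P344
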