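import Vale.Agent.P344.Layered

/-! Fourier matrices of finite abelian groups, the chirp identity and the radix two transform. -/

namespace Vale.Agent.P344

open Set Matrix
open scoped Kronecker

noncomputable def ζ (N : ℕ) : ℂ := Complex.exp (2 * Real.pi * Complex.I / N)

noncomputable def chirp (N : ℕ) : ℂ := Complex.exp (Real.pi * Complex.I / N)

theorem chirp_sq (N : ℕ) : chirp N ^ 2 = ζ N := by
  rw [chirp, ζ, ← Complex.exp_nat_mul]
  congr 1
  push_cast
  ring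

theorem chirp_ne_zero (N : ℕ) : chirp N ≠ 0 := Complex.exp_ne_zero _

/-- The Fourier matrix of `ZMod N`. -/
noncomputable def Fz (N : ℕ) [NeZero N] : Matrix (ZMod N) (ZMod N) ℂ :=
  fun j k => ZMod.stdAddChar (j * k)

theorem Fz_natCast (N : ℕ) [NeZero N] (j k : ℕ) : Fz N j k = ζ N ^ (j * k) := by
  rw [Fz, ← Nat.cast_mul, ZMod.stdAddChar_apply, ZMod.toCircle_natCast, ζ, ← Complex.exp_nat_mul]
  congr 1
  ring

theorem Fz_apply (N : ℕ) [NeZero N] (j k : ZMod N) : Fz N j k = ζ N ^ (j.val * k.val) := by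
  rw [← Fz_natCast, ZMod.natCast_zmod_val, ZMod.natCast_zmod_val]

/-- The inverse transform. -/
noncomputable def Fzinv (N : ℕ) [NeZero N] : Matrix (ZMod N) (ZMod N) ℂ :=
  mon (fun j => -j) (fun _ => (N : ℂ)⁻¹) * Fz N

theorem Fzinv_mul (N : ℕ) [NeZero N] : Fzinv N * Fz N = 1 := by
  ext j k
  rw [Fzinv, Matrix.mul_assoc, mon_mul_apply, Matrix.mul_apply]
  have e : ∀ l, Fz N (-j) l * Fz N l k = ZMod.stdAddChar (l * (k - j)) := fun l => by
    rw [Fz, Fz, ← AddChar.map_add_eq_mul]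
    congr 1
    ring
  simp only [e]
  rw [AddChar.sum_mulShift _ (ZMod.isPrimitive_stdAddChar N), Matrix.one_apply]
  have hN : (N : ℂ) ≠ 0 := by exact_mod_cast NeZero.ne N
  by_cases h : j = k
  · simp [h, hN]
  · simp [h, sub_eq_zero, Ne.symm h]

theorem mul_Fzinv (N : ℕ) [NeZero N] : Fz N * Fzinv N = 1 := mul_eq_one_comm.1 (Fzinv_mul N)

theorem Fzinv_mulVec (N : ℕ) [NeZero N] (x : ZMod N → ℂ) (j : ZMod N) :
    (Fzinv N *ᵥ x) j = (N : ℂ)⁻¹ * (Fz N *ᵥ x) (-j) := by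
  rw [Fzinv, ← Matrix.mulVec_mulVec, mon_mulVec]

/-- The properties of a Fourier matrix that the chirp identity uses. -/
structure IsDFT {G : Type} [Fintype G] [DecidableEq G] [AddCommGroup G] (F : Matrix G G ℂ) :
    Prop where
  symm : ∀ x y, F x y = F y x
  add : ∀ x y l, F (x + y) l = F x l * F y l
  inv : ∃ F', F * F' = 1

theorem isDFT_Fz (N : ℕ) [NeZero N] : IsDFT (Fz N) where
  symm x y := by rw [Fz, Fz, mul_comm]
  add x y l := by rw [Fz, Fz, Fz, add_mul, AddChar.map_add_eq_mul]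
  inv := ⟨_, mul_Fzinv N⟩

theorem IsDFT.piM {ι : Type} [Fintype ι] [DecidableEq ι] {G : ι → Type} [∀ i, Fintype (G i)]
    [∀ i, DecidableEq (G i)] [∀ i, AddCommGroup (G i)] {F : ∀ i, Matrix (G i) (G i) ℂ}
    (h : ∀ i, IsDFT (F i)) : IsDFT (piM F) where
  symm x y := Finset.prod_congr rfl fun i _ => (h i).symm _ _
  add x y l := by
    simp only [P344.piM, Pi.add_apply, (h _).add, Finset.prod_mul_distrib]
  inv := by
    choose F' hF' using fun i => (h i).inv
    exact ⟨P344.piM F', by rw [piM_mul]; simp only [hF']; exact piM_one⟩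

theorem IsDFT.kron {G G' : Type} [Fintype G] [DecidableEq G] [AddCommGroup G] [Fintype G']
    [DecidableEq G'] [AddCommGroup G'] {F : Matrix G G ℂ} {F' : Matrix G' G' ℂ}
    (h : IsDFT F) (h' : IsDFT F') : IsDFT (F ⊗ₖ F') where
  symm x y := by simp only [kroneckerMap_apply]; rw [h.symm, h'.symm]
  add x y l := by
    simp only [kroneckerMap_apply, Prod.fst_add, Prod.snd_add, h.add, h'.add]
    ring
  inv := by
    obtain ⟨A, hA⟩ := h.inv
    obtain ⟨A', hA'⟩ := h'.inv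
    exact ⟨A ⊗ₖ A', by rw [← mul_kronecker_mul, hA, hA', one_kronecker_one]⟩

/-- The chirp identity over a finite abelian group. -/
theorem IsDFT.bluestein {G : Type} [Fintype G] [DecidableEq G] [AddCommGroup G]
    {F : Matrix G G ℂ} (hF : IsDFT F) {ι : Type} (val : ι → ℕ) {w : ℂ} (hw : w ≠ 0) (φ : ι → G)
    (hφ : ∀ j k j' k', φ j - φ k = φ j' - φ k' → (val j : ℤ) - val k = val j' - val k') :
    ∃ d : G → ℂ, ∀ j k, (w ^ 2) ^ (val j * val k) =
      w ^ (val j ^ 2) * (∑ l, F (φ j) l * (d l * F l (-φ k))) * w ^ (val k ^ 2) := by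
  classical
  obtain ⟨F', hF'⟩ := hF.inv
  let δ : G → ℤ := fun g =>
    if h : ∃ p : ι × ι, φ p.1 - φ p.2 = g then (val h.choose.1 : ℤ) - val h.choose.2 else 0
  have hδ : ∀ j k, δ (φ j - φ k) = (val j : ℤ) - val k := by
    intro j k
    have h : ∃ p : ι × ι, φ p.1 - φ p.2 = φ j - φ k := ⟨(j, k), rfl⟩
    simp only [δ, dif_pos h]
    exact hφ _ _ _ _ h.choose_spec
  let c : G → ℂ := fun g => w ^ (-(δ g) ^ 2)
  refine ⟨F' *ᵥ c, fun j k => ?_⟩
  have e1 : ∑ l, F (φ j) l * ((F' *ᵥ c) l * F l (-φ k)) = (F *ᵥ (F' *ᵥ c)) (φ j - φ k) := by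
    rw [Matrix.mulVec, dotProduct]
    refine Finset.sum_congr rfl fun l _ => ?_
    rw [sub_eq_add_neg, hF.add, hF.symm l]
    ring
  rw [e1, Matrix.mulVec_mulVec, hF', Matrix.one_mulVec]
  simp only [c, hδ]
  rw [← pow_mul, ← zpow_natCast, ← zpow_natCast, ← zpow_natCast, ← zpow_add₀ hw, ← zpow_add₀ hw]
  congr 1
  push_cast
  ring

theorem layFn_fft (t : ℕ) : ∀ ω : ℂ, IsPrimitiveRoot ω (2 ^ t) →
    LayFn t fun (x : Fin (2 ^ t) → ℂ) j => ∑ k, ω ^ (j.val * k.val) * x k := by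
  induction t with
  | zero =>
    intro ω _
    refine (LayFn.mon id fun _ => 1).congr fun x j => ?_
    have hj : j = 0 := Subsingleton.elim (α := Fin 1) _ _
    subst hj
    simp
  | succ t ih =>
    intro ω hω
    have hpos : 0 < 2 ^ t := by positivity
    have hω2 : IsPrimitiveRoot (ω ^ 2) (2 ^ t) := hω.pow (by positivity) (by ring)
    have hneg : ω ^ 2 ^ t = -1 :=
      (hω.pow (by positivity) (pow_succ 2 t)).eq_neg_one_of_two_right
    have h1 := LayFn.block (μ := Fin 2) fun _ => ih _ hω2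
    have h2 := (h1.transport (Equiv.prodComm _ _) Prod.swap Prod.swap).mon_comp id
      fun p => ω ^ (p.1.val * p.2.val)
    have h3 := (LayFn.block (μ := Fin (2 ^ t)) fun _ => layFn_butterfly).comp h2
    have h4 := h3.transport (J' := Fin (2 ^ t * 2)) finProdFinEquiv finProdFinEquiv
      fun j => (⟨j.val % 2 ^ t, Nat.mod_lt _ hpos⟩,
        ⟨j.val / 2 ^ t, Nat.div_lt_of_lt_mul j.2⟩)
    refine h4.congr fun x j => ?_
    have e : ∑ k : Fin (2 ^ (t + 1)), ω ^ (j.val * k.val) * x k =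
        ∑ p : Fin (2 ^ t) × Fin 2, ω ^ (j.val * (p.2.val + 2 * p.1.val)) * x (finProdFinEquiv p) :=
      (Fintype.sum_equiv finProdFinEquiv _ _ fun p => by simp).symm
    rw [e, Fintype.sum_prod_type_right, Fin.sum_univ_two]
    have hj : ω ^ j.val = (-1) ^ (j.val / 2 ^ t) * ω ^ (j.val % 2 ^ t) := by
      conv_lhs => rw [← Nat.div_add_mod j.val (2 ^ t), pow_add, pow_mul, hneg]
    have hj2 : ∀ k : ℕ, ω ^ (j.val * (2 * k)) = (ω ^ 2) ^ (j.val % 2 ^ t * k) := by
      intro k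
      rw [pow_mul, hj, mul_pow, ← pow_mul, ← pow_mul, ← pow_mul,
        Even.neg_one_pow ⟨j.val / 2 ^ t * k, by ring⟩, one_mul]
      congr 1
      ring
    simp only [Fin.val_zero, Fin.val_one, zero_add, mul_add, pow_add, hj2, mul_one, mul_zero,
      pow_zero, one_mul, id, Function.comp, Prod.swap, Finset.mul_sum]
    congr 1
    refine Finset.sum_congr rfl fun k _ => ?_
    rw [hj]
    ring

theorem layFn_Fz (t : ℕ) : LayFn t (Fz (2 ^ t)).mulVec := by
  have h := (layFn_fft t (ζ (2 ^ t)) (Complex.isPrimitiveRoot_exp _ (by positivity))).transport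
    (ZMod.finEquiv (2 ^ t)).toEquiv (fun k => ((k.val : ℕ) : ZMod (2 ^ t)))
    fun j => ⟨j.val, ZMod.val_lt j⟩
  refine h.congr fun x j => ?_
  rw [Matrix.mulVec, dotProduct]
  symm
  refine Fintype.sum_bijective (fun k : Fin (2 ^ t) => ((k.val : ℕ) : ZMod (2 ^ t))) ?_ _ _
    fun k => ?_
  · refine (Fintype.bijective_iff_surjective_and_card _).2 ⟨fun y => ?_, by simp⟩
    exact ⟨⟨y.val, ZMod.val_lt y⟩, by simp⟩
  · rw [Fz_apply, ZMod.val_natCast_of_lt k.2]
    rfl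

theorem layFn_Fzinv (t : ℕ) : LayFn t (Fzinv (2 ^ t)).mulVec :=
  ((layFn_Fz t).mon_comp (fun j => -j) fun _ => (((2 ^ t : ℕ) : ℂ))⁻¹).congr fun x j =>
    Fzinv_mulVec _ x j

end Vale.Agent.P344
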