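import Vale.Agent.P344.Fourier

/-! Six copies of the Fourier matrix of `ZMod q` form an in-place layered computation of
logarithmic depth. -/

namespace Vale.Agent.P344

open Set Matrix
open scoped Kronecker

section Three

variable {α γ : Type}

abbrev Trip (α γ : Type) : Type := (α → ℂ) × (α → ℂ) × (γ → ℂ)

def pack (p : Trip α γ) : α ⊕ α ⊕ γ → ℂ := Sum.elim p.1 (Sum.elim p.2.1 p.2.2)

def unpack (x : α ⊕ α ⊕ γ → ℂ) : Trip α γ :=
  (fun i => x (Sum.inl i), fun i => x (Sum.inr (Sum.inl i)), fun i => x (Sum.inr (Sum.inr i)))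

theorem unpack_pack (p : Trip α γ) : unpack (pack p) = p := rfl

def Lay3 (D : ℕ) (T : Trip α γ → Trip α γ) : Prop := LayFn D fun x => pack (T (unpack x))

theorem Lay3.andThen {D D' : ℕ} {T T' : Trip α γ → Trip α γ} (h : Lay3 D T) (h' : Lay3 D' T') :
    Lay3 (D + D') fun p => T' (T p) := LayFn.comp h' h

theorem Lay3.congr {D : ℕ} {T T' : Trip α γ → Trip α γ} (h : Lay3 D T) (e : ∀ p, T' p = T p) :
    Lay3 D T' := by
  have : T' = T := funext e
  rwa [this]

theorem Lay3.work {D : ℕ} {G : (γ → ℂ) → γ → ℂ} (h : LayFn D G) :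
    Lay3 D fun p : Trip α γ => (p.1, p.2.1, G p.2.2) := by
  refine h.extend (fun i => Sum.inr (Sum.inr i)) (fun i j h => by simpa using h)
    (fun x i => rfl) ?_
  rintro x (i | i | i) hy
  · rfl
  · rfl
  · exact (hy ⟨i, rfl⟩).elim

theorem Lay3.swap (f : α → α) (d : α → ℂ) :
    Lay3 0 fun p : Trip α γ => (p.2.1, fun i => d i * p.1 (f i), p.2.2) := by
  refine (LayFn.mon (Sum.elim (fun i => Sum.inr (Sum.inl i))
    (Sum.elim (fun i => Sum.inl (f i)) fun i => Sum.inr (Sum.inr i)))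
    (Sum.elim (fun _ => 1) (Sum.elim d fun _ => 1))).congr ?_
  rintro x (i | i | i) <;> simp [pack, unpack]

theorem Lay3.load (φ : α → γ) (hφ : Function.Injective φ) (c : α → ℂ) (hc : ∀ k, c k ≠ 0) :
    Lay3 3 fun p : Trip α γ =>
      (p.1, p.2.1, p.2.2 + Function.extend φ (fun k => c k * p.1 k) 0) := by
  refine layFn_shear Sum.inl (fun k => Sum.inr (Sum.inr (φ k))) Sum.inl_injective
    (fun i j h => hφ (by simpa using h)) (fun a b => by simp) c hc (fun x a => ?_) ?_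
  · simp [pack, unpack, hφ.extend_apply]
  · rintro x (i | i | i) hy
    · rfl
    · rfl
    · have : ¬ ∃ a, φ a = i := fun ⟨a, ha⟩ => hy ⟨a, by simp [ha]⟩
      simp [pack, unpack, Function.extend_apply' _ _ _ this]

theorem Lay3.store (ψ : α → γ) (hψ : Function.Injective ψ) (c : α → ℂ) (hc : ∀ k, c k ≠ 0) :
    Lay3 3 fun p : Trip α γ => (p.1, p.2.1 + fun j => c j * p.2.2 (ψ j), p.2.2) := by
  refine layFn_shear (fun k => Sum.inr (Sum.inr (ψ k))) (fun k => Sum.inr (Sum.inl k))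
    (fun i j h => hψ (by simpa using h)) (fun i j h => by simpa using h) (fun a b => by simp)
    c hc (fun x a => ?_) ?_
  · simp [pack, unpack]
  · rintro x (i | i | i) hy
    · rfl
    · exact (hy ⟨i, rfl⟩).elim
    · rfl

/-- A shear through a dirty workspace. -/
theorem Lay3.shear [Fintype γ] [DecidableEq γ] {D : ℕ} {G G' : Matrix γ γ ℂ}
    (hG : LayFn D G.mulVec) (hG' : LayFn D G'.mulVec) (hGG : G' * G = 1)
    (φ ψ : α → γ) (hφ : Function.Injective φ) (hψ : Function.Injective ψ) (c c' : α → ℂ)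
    (hc : ∀ k, c k ≠ 0) (hc' : ∀ k, c' k ≠ 0) :
    Lay3 (4 * D + 12) fun p : Trip α γ =>
      (p.1, p.2.1 + fun j => c' j * (G *ᵥ Function.extend φ (fun k => c k * p.1 k) 0) (ψ j),
        p.2.2) := by
  have h := (((((((Lay3.load φ hφ c hc).andThen (Lay3.work hG)).andThen
    (Lay3.store ψ hψ c' hc')).andThen (Lay3.work hG')).andThen
    (Lay3.load φ hφ (fun k => -c k) fun k => neg_ne_zero.2 (hc k))).andThen
    (Lay3.work hG)).andThen
    (Lay3.store ψ hψ (fun k => -c' k) fun k => neg_ne_zero.2 (hc' k))).andThen (Lay3.work hG')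
  rw [show 4 * D + 12 = 3 + D + 3 + D + 3 + D + 3 + D by ring]
  refine h.congr fun p => ?_
  have e : ∀ z : γ → ℂ, z + Function.extend φ (fun k => c k * p.1 k) 0 +
      Function.extend φ (fun k => -c k * p.1 k) 0 = z := by
    intro z
    funext g
    by_cases hg : ∃ a, φ a = g
    · obtain ⟨a, rfl⟩ := hg
      simp [hφ.extend_apply]
    · simp [Function.extend_apply' _ _ _ hg]
  simp only [Matrix.mulVec_mulVec, hGG, Matrix.one_mulVec, e]
  refine Prod.ext rfl (Prod.ext ?_ rfl)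
  funext j
  simp only [Pi.add_apply, Matrix.mulVec_add]
  ring

end Three

theorem layFn_conv (t : ℕ) (d : ZMod (2 ^ t) → ℂ) :
    LayFn (2 * t) (Fz (2 ^ t) * (diagonal d * Fz (2 ^ t))).mulVec := by
  rw [two_mul]
  refine ((layFn_Fz t).comp ((layFn_Fz t).mon_comp id d)).congr fun x i => ?_
  rw [← Matrix.mulVec_mulVec, ← Matrix.mulVec_mulVec]
  congr 1
  funext j
  simp [Matrix.mulVec_diagonal]

theorem layFn_conv_inv (t : ℕ) (d : ZMod (2 ^ t) → ℂ) :
    LayFn (2 * t) (Fzinv (2 ^ t) * (diagonal d * Fzinv (2 ^ t))).mulVec := by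
  rw [two_mul]
  refine ((layFn_Fzinv t).comp ((layFn_Fzinv t).mon_comp id d)).congr fun x i => ?_
  rw [← Matrix.mulVec_mulVec, ← Matrix.mulVec_mulVec]
  congr 1
  funext j
  simp [Matrix.mulVec_diagonal]

theorem conv_inv_mul (N : ℕ) [NeZero N] (d : ZMod N → ℂ) (hd : ∀ l, d l ≠ 0) :
    Fzinv N * (diagonal (fun l => (d l)⁻¹) * Fzinv N) * (Fz N * (diagonal d * Fz N)) = 1 := by
  have e : diagonal (fun l => (d l)⁻¹) * diagonal d = 1 := by
    rw [diagonal_mul_diagonal, ← diagonal_one]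
    congr 1
    funext l
    exact inv_mul_cancel₀ (hd l)
  rw [Matrix.mul_assoc, Matrix.mul_assoc, ← Matrix.mul_assoc (Fzinv N) (Fz N), Fzinv_mul,
    Matrix.one_mul, ← Matrix.mul_assoc (diagonal _), e, Matrix.one_mul, Fzinv_mul]

theorem natCast_sub_inj {M : ℕ} {a b a' b' : ℕ} (ha : 2 * a < M) (hb : 2 * b < M)
    (ha' : 2 * a' < M) (hb' : 2 * b' < M) (h : (M : ℤ) ∣ ((a : ℤ) - b) - (a' - b')) :
    (a : ℤ) - b = a' - b' := by
  have := Int.eq_zero_of_abs_lt_dvd h (by rw [abs_lt]; omega)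
  omega

theorem shear_Fz {q t : ℕ} [NeZero q] (hq : 2 * q ≤ 2 ^ t) {u : ℂ} (hu : u ≠ 0)
    (π : ZMod q → ZMod q) (hπ : Function.Injective π) :
    Lay3 (16 * t + 24) fun p : Trip (ZMod q) (ZMod (2 ^ t)) =>
      (p.1, p.2.1 + fun j => u * (Fz q *ᵥ p.1) (π j), p.2.2) := by
  let φ : ZMod q → ZMod (2 ^ t) := fun k => ((k.val : ℕ) : ZMod (2 ^ t))
  have hlt : ∀ k : ZMod q, 2 * k.val < 2 ^ t := fun k => by have := ZMod.val_lt k; omega
  have hφφ : ∀ j k j' k', φ j - φ k = φ j' - φ k' → (j.val : ℤ) - k.val = j'.val - k'.val := by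
    intro j k j' k' h
    refine natCast_sub_inj (hlt _) (hlt _) (hlt _) (hlt _) ?_
    rw [← ZMod.intCast_zmod_eq_zero_iff_dvd]
    push_cast
    exact sub_eq_zero.2 h
  have hφ : Function.Injective φ := fun j k h => by
    have := hφφ j k k k (by rw [h])
    exact ZMod.val_injective q (by omega)
  obtain ⟨d, hd⟩ := (isDFT_Fz (2 ^ t)).bluestein ZMod.val (chirp_ne_zero q) φ hφφ
  let d₂ : ZMod (2 ^ t) → ℂ := fun l => if d l = 1 then -1 else 1
  let d₁ : ZMod (2 ^ t) → ℂ := fun l => d l - d₂ l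
  have h₂ : ∀ l, d₂ l ≠ 0 := fun l => by
    simp only [d₂]
    split_ifs <;> simp
  have h₁ : ∀ l, d₁ l ≠ 0 := fun l => by
    simp only [d₁, d₂]
    split_ifs with h
    · rw [h]; norm_num
    · exact sub_ne_zero.2 h
  have key : ∀ e : ZMod (2 ^ t) → ℂ, (∀ l, e l ≠ 0) → _ := fun e he =>
    Lay3.shear (layFn_conv t e) (layFn_conv_inv t _) (conv_inv_mul _ e he)
      (fun k => -φ k) (fun j => φ (π j)) (neg_injective.comp hφ) (hφ.comp hπ)
      (fun k => chirp q ^ (k.val ^ 2)) (fun j => u * chirp q ^ ((π j).val ^ 2))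
      (fun k => pow_ne_zero _ (chirp_ne_zero q))
      fun j => mul_ne_zero hu (pow_ne_zero _ (chirp_ne_zero q))
  have h := (key d₁ h₁).andThen (key d₂ h₂)
  rw [show 16 * t + 24 = 4 * (2 * t) + 12 + (4 * (2 * t) + 12) by ring]
  refine h.congr fun p => Prod.ext rfl (Prod.ext ?_ rfl)
  funext j
  have e1 : ∀ l, (Fz (2 ^ t) *ᵥ Function.extend (fun k => -φ k)
      (fun k => chirp q ^ (k.val ^ 2) * p.1 k) 0) l =
      ∑ k, Fz (2 ^ t) l (-φ k) * (chirp q ^ (k.val ^ 2) * p.1 k) := by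
    intro l
    rw [Matrix.mulVec, dotProduct]
    symm
    have hn : Function.Injective fun k => -φ k := neg_injective.comp hφ
    refine Fintype.sum_of_injective _ hn _ _ (fun g hg => ?_) fun k => ?_
    · rw [Function.extend_apply' _ _ _ hg]
      simp
    · rw [hn.extend_apply]
  have e2 : ∀ e : ZMod (2 ^ t) → ℂ, ((Fz (2 ^ t) * (diagonal e * Fz (2 ^ t))) *ᵥ
      Function.extend (fun k => -φ k) (fun k => chirp q ^ (k.val ^ 2) * p.1 k) 0) (φ (π j)) =
      ∑ l, Fz (2 ^ t) (φ (π j)) l *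
        (e l * ∑ k, Fz (2 ^ t) l (-φ k) * (chirp q ^ (k.val ^ 2) * p.1 k)) := by
    intro e
    rw [← Matrix.mulVec_mulVec, ← Matrix.mulVec_mulVec, Matrix.mulVec, dotProduct]
    simp only [Matrix.mulVec_diagonal, e1]
  simp only [Pi.add_apply, e2]
  rw [add_assoc, ← mul_add, ← Finset.sum_add_distrib, Matrix.mulVec, dotProduct, mul_assoc]
  congr 2
  simp only [Fz_apply q, ← chirp_sq, hd, Finset.mul_sum, Finset.sum_mul, ← Finset.sum_add_distrib]
  rw [Finset.sum_comm]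
  refine Finset.sum_congr rfl fun l _ => Finset.sum_congr rfl fun k _ => ?_
  simp only [d₁]
  ring

theorem pair_Fz {q t : ℕ} [NeZero q] (hq : 2 * q ≤ 2 ^ t) :
    Lay3 (48 * t + 72) fun p : Trip (ZMod q) (ZMod (2 ^ t)) =>
      (Fz q *ᵥ p.1, Fz q *ᵥ p.2.1, p.2.2) := by
  have hN : (q : ℂ) ≠ 0 := by exact_mod_cast NeZero.ne q
  have s1 := shear_Fz hq one_ne_zero id Function.injective_id
  have s2 := shear_Fz hq (neg_ne_zero.2 (inv_ne_zero hN)) (fun j => -j) neg_injective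
  have w1 := Lay3.swap (γ := ZMod (2 ^ t)) (id : ZMod q → ZMod q) fun _ => 1
  have w2 := Lay3.swap (γ := ZMod (2 ^ t)) (fun j : ZMod q => -j) fun _ => -(q : ℂ)
  have h := ((((s1.andThen w1).andThen s2).andThen w1).andThen s1).andThen w2
  rw [show 48 * t + 72 = 16 * t + 24 + 0 + (16 * t + 24) + 0 + (16 * t + 24) + 0 by ring]
  refine h.congr fun p => ?_
  obtain ⟨a, b, z⟩ := p
  have e1 : ∀ y : ZMod q → ℂ, (fun j => -(q : ℂ)⁻¹ * (Fz q *ᵥ y) (-j)) = -(Fzinv q *ᵥ y) :=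
    fun y => by funext j; simp [Fzinv_mulVec]
  have e2 : a + -(Fzinv q *ᵥ (b + Fz q *ᵥ a)) = -(Fzinv q *ᵥ b) := by
    rw [Matrix.mulVec_add, Matrix.mulVec_mulVec, Fzinv_mul, Matrix.one_mulVec]
    abel
  simp only [one_mul, id, e1, e2]
  refine Prod.ext ?_ (Prod.ext ?_ rfl)
  · simp only [Matrix.mulVec_neg, Matrix.mulVec_mulVec, mul_Fzinv, Matrix.one_mulVec]
    funext j
    simp
  · funext j
    simp [Fzinv_mulVec, hN]

theorem two_of_six {q t : ℕ} [NeZero q] (hq : 2 * q ≤ 2 ^ t) (hq' : 2 ^ t ≤ 4 * q)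
    (i₀ i₁ : Fin 6) (hi : i₀ ≠ i₁) :
    LayFn (48 * t + 72) fun (x : Fin 6 × ZMod q → ℂ) p =>
      if p.1 = i₀ ∨ p.1 = i₁ then (Fz q *ᵥ fun k => x (p.1, k)) p.2 else x p := by
  obtain ⟨g⟩ : Nonempty (ZMod (2 ^ t) ↪ ((Finset.univ.erase i₀).erase i₁ : Finset (Fin 6)) ×
      ZMod q) := Function.Embedding.nonempty_of_card_le (by
    rw [Fintype.card_prod, Fintype.card_coe, Finset.card_erase_of_mem (by simp [hi.symm]),
      Finset.card_erase_of_mem (by simp)]
    simpa using hq')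
  have hg : ∀ z, (g z).1.1 ≠ i₀ ∧ (g z).1.1 ≠ i₁ := fun z => by
    have := (g z).1.2
    simp only [Finset.mem_erase] at this
    exact ⟨this.2.1, this.1⟩
  refine LayFn.extend (pair_Fz hq) (Sum.elim (fun k => (i₀, k))
    (Sum.elim (fun k => (i₁, k)) fun z => ((g z).1.1, (g z).2))) ?_ ?_ ?_
  · rintro (a | a | a) (b | b | b) h <;>
      simp only [Sum.elim_inl, Sum.elim_inr, Prod.mk.injEq] at h
    · rw [h.2]
    · exact absurd h.1 hi
    · exact absurd h.1.symm (hg b).1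
    · exact absurd h.1.symm hi
    · rw [h.2]
    · exact absurd h.1.symm (hg b).2
    · exact absurd h.1 (hg a).1
    · exact absurd h.1 (hg a).2
    · rw [g.injective (Prod.ext (Subtype.ext h.1) h.2)]
  · rintro x (a | a | a)
    · simp [pack, unpack]
    · simp [pack, unpack]
    · simp [pack, unpack, (hg a).1, (hg a).2]
  · rintro x ⟨i, k⟩ hy
    rw [if_neg]
    rintro (h | h)
    · exact hy ⟨Sum.inl k, by simp [← h]⟩
    · exact hy ⟨Sum.inr (Sum.inl k), by simp [← h]⟩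

theorem six_copies {q t : ℕ} [NeZero q] (hq : 2 * q ≤ 2 ^ t) (hq' : 2 ^ t ≤ 4 * q) :
    LayFn (144 * t + 216) ((1 : Matrix (Fin 6) (Fin 6) ℂ) ⊗ₖ Fz q).mulVec := by
  have h := ((two_of_six hq hq' 0 1 (by decide)).comp (two_of_six hq hq' 2 3 (by decide))).comp
    (two_of_six hq hq' 4 5 (by decide))
  rw [show 144 * t + 216 = 48 * t + 72 + (48 * t + 72 + (48 * t + 72)) by ring]
  refine h.congr ?_
  rintro x ⟨i, j⟩
  have e : (((1 : Matrix (Fin 6) (Fin 6) ℂ) ⊗ₖ Fz q) *ᵥ x) (i, j) =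
      (Fz q *ᵥ fun k => x (i, k)) j := by
    simp [Matrix.mulVec, dotProduct, Fintype.sum_prod_type, Matrix.one_apply, ite_mul]
  rw [e]
  fin_cases i <;> simp

theorem six_copies' {q y : ℕ} [NeZero q] (hq : q ≤ y) :
    LayFn (144 * Nat.clog 2 (2 * y) + 216) ((1 : Matrix (Fin 6) (Fin 6) ℂ) ⊗ₖ Fz q).mulVec := by
  have h0 := NeZero.pos q
  have h1 : 2 * q ≤ 2 ^ Nat.clog 2 (2 * q) := Nat.le_pow_clog one_lt_two _
  have h2 : 2 ^ Nat.clog 2 (2 * q) ≤ 4 * q := by
    have h3 := Nat.pow_pred_clog_lt_self (b := 2) one_lt_two (x := 2 * q) (by omega)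
    have h4 := Nat.clog_pos (b := 2) one_lt_two (n := 2 * q) (by omega)
    obtain ⟨s, hs⟩ : ∃ s, Nat.clog 2 (2 * q) = s + 1 := ⟨_, (Nat.succ_pred_eq_of_pos h4).symm⟩
    rw [hs] at h3 ⊢
    simp only [Nat.pred_succ] at h3
    omega
  refine (six_copies h1 h2).mono ?_
  have := Nat.clog_mono_right 2 (show 2 * q ≤ 2 * y by omega)
  omega

end Vale.Agent.P344
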