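import Vale.Agent.P344.Recursion

/-! In-place layered computations and the cost of their tensor products. -/

namespace Vale.Agent.P344

open Set Matrix

/-- `T` is a composition of `D` layers, with generalized monomial maps in between. -/
def LayFn {J : Type} : ℕ → ((J → ℂ) → J → ℂ) → Prop
  | 0, T => ∃ (f : J → J) (d : J → ℂ), T = fun x i => d i * x (f i)
  | D + 1, T => ∃ (f : J → J) (d : J → ℂ) (σ : J → J) (T' : (J → ℂ) → J → ℂ),
      Function.Involutive σ ∧ LayFn D T' ∧
        T = fun x i => d i * (al * T' x (f i) + be * T' x (σ (f i)))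

variable {J J' : Type}

theorem LayFn.congr {D : ℕ} {T T' : (J → ℂ) → J → ℂ} (h : LayFn D T) (e : ∀ x i, T' x i = T x i) :
    LayFn D T' := by
  have : T' = T := funext fun x => funext (e x)
  rwa [this]

theorem LayFn.mon (f : J → J) (d : J → ℂ) : LayFn 0 fun x i => d i * x (f i) := ⟨f, d, rfl⟩

theorem LayFn.mon_comp {D : ℕ} {T : (J → ℂ) → J → ℂ} (h : LayFn D T) (f : J → J) (d : J → ℂ) :
    LayFn D fun x i => d i * T x (f i) := by
  cases D with
  | zero =>
    obtain ⟨f', d', rfl⟩ := h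
    exact ⟨f' ∘ f, fun i => d i * d' (f i), by funext x i; simp [mul_assoc]⟩
  | succ D =>
    obtain ⟨f', d', σ, T', hσ, hT, rfl⟩ := h
    exact ⟨f' ∘ f, fun i => d i * d' (f i), σ, T', hσ, hT, by funext x i; simp [mul_assoc]⟩

theorem LayFn.comp {D D' : ℕ} {T T' : (J → ℂ) → J → ℂ} (h : LayFn D T) (h' : LayFn D' T') :
    LayFn (D' + D) fun x => T (T' x) := by
  induction D generalizing T with
  | zero =>
    obtain ⟨f, d, rfl⟩ := h
    exact h'.mon_comp f d
  | succ D ih =>
    obtain ⟨f, d, σ, T₁, hσ, hT, rfl⟩ := h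
    exact ⟨f, d, σ, _, hσ, ih hT, rfl⟩

theorem LayFn.comp_mon {D : ℕ} {T : (J → ℂ) → J → ℂ} (h : LayFn D T) (f : J → J) (d : J → ℂ) :
    LayFn D fun x => T fun i => d i * x (f i) := by
  simpa using h.comp (LayFn.mon f d)

theorem LayFn.succ {D : ℕ} {T : (J → ℂ) → J → ℂ} (h : LayFn D T) : LayFn (D + 1) T :=
  ⟨id, fun _ => 1, id, T, fun _ => rfl, h, by
    funext x i
    simp [← add_mul, al_add_be]⟩

theorem LayFn.mono {D D' : ℕ} {T : (J → ℂ) → J → ℂ} (h : LayFn D T) (hD : D ≤ D') :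
    LayFn D' T := by
  induction hD with
  | refl => exact h
  | step _ ih => exact ih.succ

theorem LayFn.exists_extend {D : ℕ} {T : (J → ℂ) → J → ℂ} (h : LayFn D T) (e : J → J')
    (he : Function.Injective e) : ∃ T' : (J' → ℂ) → J' → ℂ, LayFn D T' ∧
      (∀ x i, T' x (e i) = T (x ∘ e) i) ∧ ∀ x y, y ∉ range e → T' x y = x y := by
  induction D generalizing T with
  | zero =>
    obtain ⟨f, d, rfl⟩ := h
    refine ⟨_, LayFn.mon (Function.extend e (e ∘ f) id) (Function.extend e d 1), fun x i => ?_,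
      fun x y hy => ?_⟩
    · simp [he.extend_apply]
    · simp [Function.extend_apply' _ _ _ hy]
  | succ D ih =>
    obtain ⟨f, d, σ, T₁, hσ, hT, rfl⟩ := h
    obtain ⟨T₂, h1, h2, h3⟩ := ih hT
    refine ⟨_, ⟨Function.extend e (e ∘ f) id, Function.extend e d 1, Function.extend e (e ∘ σ) id,
      T₂, fun y => ?_, h1, rfl⟩, fun x i => ?_, fun x y hy => ?_⟩
    · by_cases hy : y ∈ range e
      · obtain ⟨i, rfl⟩ := hy
        simp [he.extend_apply, hσ i]
      · simp [Function.extend_apply' _ _ _ hy]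
    · simp [he.extend_apply, h2]
    · simp [Function.extend_apply' _ _ _ hy, h3 x y hy, ← add_mul, al_add_be]

theorem LayFn.extend {D : ℕ} {T : (J → ℂ) → J → ℂ} (h : LayFn D T) (e : J → J')
    (he : Function.Injective e) {T' : (J' → ℂ) → J' → ℂ}
    (h1 : ∀ x i, T' x (e i) = T (x ∘ e) i) (h2 : ∀ x y, y ∉ range e → T' x y = x y) :
    LayFn D T' := by
  obtain ⟨T₂, h3, h4, h5⟩ := h.exists_extend e he
  refine h3.congr fun x y => ?_
  by_cases hy : y ∈ range e
  · obtain ⟨i, rfl⟩ := hy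
    rw [h1, h4]
  · rw [h2 x y hy, h5 x y hy]

theorem LayFn.transport {D : ℕ} {T : (J → ℂ) → J → ℂ} (h : LayFn D T) (e : J ≃ J')
    (f₁ : J → J') (f₂ : J' → J) : LayFn D fun x j => T (x ∘ f₁) (f₂ j) := by
  have h1 : LayFn D fun (x : J' → ℂ) j => T (x ∘ e) (e.symm j) :=
    h.extend e e.injective (fun x i => by simp) fun x y hy => (hy ⟨e.symm y, by simp⟩).elim
  refine ((h1.comp_mon (f₁ ∘ e.symm) fun _ => 1).mon_comp (e ∘ f₂) fun _ => 1).congr
    fun x j => ?_
  simp [Function.comp_def]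

theorem LayFn.block {μ : Type} {D : ℕ} {T : μ → (J → ℂ) → J → ℂ} (h : ∀ a, LayFn D (T a)) :
    LayFn D fun (x : μ × J → ℂ) p => T p.1 (fun i => x (p.1, i)) p.2 := by
  induction D generalizing T with
  | zero =>
    choose f d hT using h
    exact ⟨fun p => (p.1, f p.1 p.2), fun p => d p.1 p.2, by funext x p; simp [hT]⟩
  | succ D ih =>
    choose f d σ T' hσ hT' hT using h
    exact ⟨fun p => (p.1, f p.1 p.2), fun p => d p.1 p.2, fun p => (p.1, σ p.1 p.2), _,
      fun p => by simp [hσ p.1 p.2], ih hT', by funext x p; simp [hT]⟩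

theorem mon_mulVec {κ ι : Type} [Fintype ι] [DecidableEq ι] (f : κ → ι) (d : κ → ℂ) (x : ι → ℂ)
    (k : κ) : (mon f d *ᵥ x) k = d k * x (f k) := by
  simp [Matrix.mulVec, dotProduct, mon, ite_mul]

theorem lay_mulVec [Fintype J] [DecidableEq J] (σ : J → J) (x : J → ℂ) (k : J) :
    (lay σ *ᵥ x) k = al * x k + be * x (σ k) := by
  simp [Matrix.mulVec, dotProduct, lay, ite_mul, add_mul, Finset.sum_add_distrib]

theorem LayFn.exists_matrix [Fintype J] [DecidableEq J] {D : ℕ} {T : (J → ℂ) → J → ℂ}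
    (h : LayFn D T) : ∃ M : Matrix J J ℂ, T = M.mulVec := by
  induction D generalizing T with
  | zero =>
    obtain ⟨f, d, rfl⟩ := h
    exact ⟨P344.mon f d, by funext x i; rw [mon_mulVec]⟩
  | succ D ih =>
    obtain ⟨f, d, σ, T₁, hσ, hT, rfl⟩ := h
    obtain ⟨M, rfl⟩ := ih hT
    refine ⟨P344.mon f d * (lay σ * M), ?_⟩
    funext x i
    rw [← Matrix.mulVec_mulVec, ← Matrix.mulVec_mulVec, mon_mulVec, lay_mulVec]

theorem Fast.piM_layFn {r τ : ℕ} (H : Fast r τ) {ι : Type} [Fintype ι] [DecidableEq ι]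
    (hι : Fintype.card ι ≤ r) {J : ι → Type} [∀ i, Fintype (J i)] [∀ i, DecidableEq (J i)]
    {D : ℕ} (M : ∀ i, Matrix (J i) (J i) ℂ) (hM : ∀ i, LayFn D (M i).mulVec) :
    Cost (piM M) (Fintype.card (∀ i, J i) * (D * (τ + 1) + 1)) := by
  induction D generalizing M with
  | zero =>
    choose f d hT using hM
    have e : M = fun i => mon (f i) (d i) := by
      funext i
      refine Matrix.mulVec_injective ?_
      rw [hT]
      funext x k
      rw [mon_mulVec]
    rw [e, piM_mon]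
    exact (Cost.mon _ _).mono (by simp)
  | succ D ih =>
    choose f d σ T' hσ hT' hT using hM
    choose M' hM' using fun i => (hT' i).exists_matrix
    have e : M = fun i => mon (f i) (d i) * (lay (σ i) * M' i) := by
      funext i
      refine Matrix.mulVec_injective ?_
      rw [hT, hM']
      funext x k
      rw [← Matrix.mulVec_mulVec, ← Matrix.mulVec_mulVec, mon_mulVec, lay_mulVec]
    rw [e, ← piM_mul, ← piM_mul, piM_mon]
    refine ((Cost.mon _ _).mul ((H.piM_lay hι σ hσ).mul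
      (ih M' fun i => hM' i ▸ hT' i))).mono (le_of_eq ?_)
    ring

/-- The butterfly. -/
theorem layFn_butterfly : LayFn 1 fun (x : Fin 2 → ℂ) s => x 0 + (-1) ^ s.val * x 1 := by
  refine ⟨id, ![1 - Complex.I, (1 - Complex.I) * Complex.I], ![1, 0], _,
    fun s => by fin_cases s <;> rfl, LayFn.mon id ![1, Complex.I], ?_⟩
  funext x s
  fin_cases s
  · simp only [al, be]
    simp
    linear_combination (x 0 / 2 + x 1 * (1 - Complex.I / 2)) * Complex.I_mul_I
  · simp only [al, be]
    simp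
    linear_combination (x 0 * (1 - Complex.I / 2) + x 1 * (Complex.I * Complex.I / 2 - 1)) *
      Complex.I_mul_I

/-- The elementary shear. -/
theorem layFn_shear2 {c : ℂ} (hc : c ≠ 0) :
    LayFn 3 fun (x : Fin 2 → ℂ) s => if s = 0 then x 0 else x 1 + c * x 0 := by
  have h1 := layFn_butterfly.comp_mon id ![1, -5 / (3 * c)]
  have h2 := (layFn_butterfly.comp_mon id ![1, 2]).comp h1
  have h3 := ((layFn_butterfly.comp_mon id ![3 / 2, 1 / 2]).comp h2).mon_comp id ![1 / 4, c / 5]
  refine h3.congr fun x s => ?_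
  fin_cases s
  · simp
    ring
  · simp
    field_simp
    ring

theorem layFn_shear {μ : Type} (src tgt : μ → J) (hs : Function.Injective src)
    (ht : Function.Injective tgt) (hst : ∀ a b, src a ≠ tgt b) (c : μ → ℂ) (hc : ∀ a, c a ≠ 0)
    {T : (J → ℂ) → J → ℂ} (h1 : ∀ x a, T x (tgt a) = x (tgt a) + c a * x (src a))
    (h2 : ∀ x y, y ∉ range tgt → T x y = x y) : LayFn 3 T := by
  refine (LayFn.block fun a => layFn_shear2 (hc a)).extend
    (fun p : μ × Fin 2 => if p.2 = 0 then src p.1 else tgt p.1) ?_ ?_ ?_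
  · rintro ⟨a, s⟩ ⟨b, t⟩ h
    fin_cases s <;> fin_cases t
    · simp at h; simp [hs h]
    · simp at h; exact absurd h (hst _ _)
    · simp at h; exact absurd h.symm (hst _ _)
    · simp at h; simp [ht h]
  · rintro x ⟨a, s⟩
    fin_cases s
    · simp
      exact h2 _ _ fun ⟨b, hb⟩ => hst _ _ hb.symm
    · simp [h1]
  · intro x y hy
    exact h2 x y fun ⟨b, hb⟩ => hy ⟨(b, 1), by simp [hb]⟩

end Vale.Agent.P344
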