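import Vale.Agent.P344.Quad

/-! The finite linear network with a saving. -/

namespace Vale.Agent.P344

open Set Matrix
open scoped Kronecker

/-- `D` is a sum of at most `l` rank one forms `u uᵀ`. -/
def SumSq {N : Type} (D : Matrix N N (ZMod 2)) (l : ℕ) : Prop :=
  ∃ (ι : Type) (I : Finset ι) (U : ι → N → ZMod 2),
    I.card ≤ l ∧ D = ∑ i ∈ I, vecMulVec (U i) (U i)

theorem SumSq.sq {N : Type} (u : N → ZMod 2) : SumSq (vecMulVec u u) 1 :=
  ⟨Unit, Finset.univ, fun _ => u, by simp, by simp⟩

theorem vecMulVec_kron {N N' : Type} (u : N → ZMod 2) (u' : N' → ZMod 2) :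
    vecMulVec u u ⊗ₖ vecMulVec u' u' =
      vecMulVec (fun p : N × N' => u p.1 * u' p.2) (fun p : N × N' => u p.1 * u' p.2) := by
  ext ⟨i, i'⟩ ⟨j, j'⟩
  simp only [kroneckerMap_apply, vecMulVec_apply]
  ring

theorem SumSq.kron {N N' : Type} {D : Matrix N N (ZMod 2)} {D' : Matrix N' N' (ZMod 2)}
    {l l' : ℕ} (h : SumSq D l) (h' : SumSq D' l') : SumSq (D ⊗ₖ D') (l * l') := by
  obtain ⟨ι, I, U, hI, rfl⟩ := h
  obtain ⟨ι', I', U', hI', rfl⟩ := h'
  refine ⟨ι × ι', I ×ˢ I', fun q p => U q.1 p.1 * U' q.2 p.2, ?_, ?_⟩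
  · rw [Finset.card_product]
    exact Nat.mul_le_mul hI hI'
  · ext ⟨i, i'⟩ ⟨j, j'⟩
    simp only [kroneckerMap_apply, Matrix.sum_apply, vecMulVec_apply, Finset.sum_product,
      Finset.sum_mul_sum]
    refine Finset.sum_congr rfl fun a _ => Finset.sum_congr rfl fun b _ => by ring

section Sys

variable {N M V : Type} [AddCommGroup M] [Module ℂ M] [AddCommGroup V] [Module ℂ V]
  {ent : Matrix N N (ZMod 2) → M → Set V} {E A : ℕ}

theorem IsSys.path0 (h : IsSys ent E A) {ι : Type} (I : Finset ι) (U : ι → N → ZMod 2)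
    (B : Matrix N N (ZMod 2)) (x : M) :
    Reach (ent B x) (I.card * E) (ent (B + ∑ i ∈ I, vecMulVec (U i) (U i)) x) := by
  classical
  induction I using Finset.induction_on with
  | empty => simpa using Reach.of_subset (subset_refl _)
  | insert a I ha ih =>
    rw [Finset.sum_insert ha, Finset.card_insert_of_notMem ha, add_mul, one_mul,
      add_comm (vecMulVec (U a) (U a)), ← add_assoc]
    exact ih.trans' (h.edge _ _ _)

theorem IsSys.path (h : IsSys ent E A) {D B B' : Matrix N N (ZMod 2)} {l : ℕ} (hD : SumSq D l)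
    (hB : B' = B + D) (x : M) : Reach (ent B x) (l * E) (ent B' x) := by
  obtain ⟨ι, I, U, hI, rfl⟩ := hD
  rw [hB]
  exact (h.path0 I U B x).mono_num (Nat.mul_le_mul_right _ hI)

theorem IsSys.add1 (h : IsSys ent E A) {S : Set V} {B : Matrix N N (ZMod 2)} {a b : M} {c : ℂ}
    (ha : ent B a ⊆ insert 0 S) (hb : c ≠ 0 → ent B b ⊆ S) : Reach S A (ent B (a + c • b)) := by
  by_cases hc : c = 0
  · rw [hc, zero_smul, add_zero]
    exact Reach.done ha
  · exact (h.add B a b c).mono_left0 (union_subset ha ((hb hc).trans (subset_insert _ _)))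

theorem IsSys.comb' (h : IsSys ent E A) {S : Set V} {B : Matrix N N (ZMod 2)} {ι : Type}
    (I : Finset ι) {a : M} {c : ι → ℂ} {b : ι → M}
    (ha : ent B a ⊆ insert 0 S) (hb : ∀ i, c i ≠ 0 → ent B (b i) ⊆ S) :
    Reach S (I.card * A) (ent B (a + ∑ i ∈ I, c i • b i)) := by
  classical
  induction I using Finset.induction_on with
  | empty => simpa using Reach.done ha
  | insert i I hi ih =>
    rw [Finset.sum_insert hi, Finset.card_insert_of_notMem hi, add_mul, one_mul,
      add_comm (c i • b i), ← add_assoc]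
    exact ih.trans (h.add1 (subset_union_right.trans (subset_insert _ _))
      fun hc => (hb i hc).trans subset_union_left)

theorem IsSys.comb (h : IsSys ent E A) {S : Set V} {B : Matrix N N (ZMod 2)} {ι : Type}
    [Fintype ι] {a : M} {c : ι → ℂ} {b : ι → M}
    (ha : ent B a ⊆ S) (hb : ∀ i, c i ≠ 0 → ent B (b i) ⊆ S) :
    Reach S (Fintype.card ι * A) (ent B (a + ∑ i, c i • b i)) :=
  h.comb' Finset.univ (ha.trans (subset_insert _ _)) hb

theorem IsSys.comb0 (h : IsSys ent E A) {S : Set V} {B : Matrix N N (ZMod 2)} {ι : Type}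
    [Fintype ι] {c : ι → ℂ} {b : ι → M} (hb : ∀ i, c i ≠ 0 → ent B (b i) ⊆ S) :
    Reach S (Fintype.card ι * A) (ent B (∑ i, c i • b i)) := by
  have := h.comb' Finset.univ (a := 0) ((h.zero B).trans (by simp)) hb
  rwa [zero_add] at this

theorem IsSys.restrict (h : IsSys ent E A) {H : Type}
    (F : Matrix H H (ZMod 2) → Matrix N N (ZMod 2))
    (hF : ∀ B u, ∃ u', F (B + vecMulVec u u) = F B + vecMulVec u' u') :
    IsSys (fun B => ent (F B)) E A where
  edge B u x := by
    obtain ⟨u', hu⟩ := hF B u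
    simp only [hu]
    exact h.edge _ _ _
  add B a b c := h.add _ a b c
  zero B := h.zero _

end Sys

theorem phase {V : Type} [AddCommGroup V] [Module ℂ V] {ι : Type} [Fintype ι] (S : Set V)
    (c : ℕ) (T : ι → Set V) (h : ∀ i, Reach S c (T i)) :
    ∃ S', S ⊆ S' ∧ Reach S (Fintype.card ι * c) S' ∧ ∀ i, T i ⊆ S' :=
  ⟨S ∪ ⋃ i, T i, subset_union_left, (Reach.iUnion_const c T h).keep,
    fun i => (subset_iUnion T i).trans subset_union_right⟩

/-- The rank one form of a vector. -/
def sq {H : Type} (u : H → ZMod 2) : Matrix H H (ZMod 2) := vecMulVec u u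

/-- The correction matrix: low rank matrix minus identity. -/
noncomputable def corr {T R : Type} [DecidableEq T] [Fintype R] (α : T → R → ℂ) (β : R → T → ℂ)
    (a' a : T) : ℂ := ∑ r, α a' r * β r a - if a' = a then 1 else 0

structure IsDesign {H T R : Type} [DecidableEq H] [DecidableEq T] [Fintype R]
    (t : T → H → ZMod 2) (α : T → R → ℂ) (β : R → T → ℂ) (g : ℕ) : Prop where
  one : SumSq (1 : Matrix H H (ZMod 2)) (g + 2)
  one_add : ∀ a, SumSq (1 + sq (t a)) (g + 1)
  good : ∀ a' a, corr α β a' a ≠ 0 → SumSq (1 + sq (t a) + sq (t a')) g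

theorem corr_sum {T R M : Type} [DecidableEq T] [Fintype T] [Fintype R] [AddCommGroup M]
    [Module ℂ M] (α : T → R → ℂ) (β : R → T → ℂ) (a' : T) (s : T → M) :
    ∑ a, corr α β a' a • s a = ∑ r, α a' r • ∑ a, β r a • s a - s a' := by
  simp only [corr, sub_smul, Finset.sum_sub_distrib, Finset.sum_smul, Finset.smul_sum, smul_smul,
    ite_smul, one_smul, zero_smul, Finset.sum_ite_eq, Finset.mem_univ, if_true]
  rw [Finset.sum_comm]

theorem m2_cancel {H : Type} (B D : Matrix H H (ZMod 2)) : D = B + (D + B) := by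
  rw [add_comm D, ← add_assoc, add_self_mat, zero_add]

section Stage

variable {H T R M V : Type} [DecidableEq H] [DecidableEq T] [Fintype T] [Fintype R]
  [AddCommGroup M] [Module ℂ M] [AddCommGroup V] [Module ℂ V]
  {ent : Matrix H H (ZMod 2) → M → Set V} {E A : ℕ}
  {t : T → H → ZMod 2} {α : T → R → ℂ} {β : R → T → ℂ} {g : ℕ}

/-- Edge count of one stage. -/
def stE (v ρ g : ℕ) : ℕ := 2 * v * (g + 1) + v * v * (g + 2) + ρ * (g + 2)

/-- Arithmetic count of one stage. -/
def stA (v ρ : ℕ) : ℕ := 4 * v * v + 2 * ρ * v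

theorem stageA (h : IsSys ent E A) (hd : IsDesign t α β g) (x s : T → M) (z : T → T → M)
    (S : Set V) (hx : ∀ a, ent 0 (x a) ⊆ S) (hs : ∀ a, ent (sq (t a)) (s a) ⊆ S)
    (hz : ∀ a a', ent 0 (z a a') ⊆ S) :
    Reach S (stE (Fintype.card T) (Fintype.card R) g * E + stA (Fintype.card T) (Fintype.card R) * A)
      ((⋃ a, ent 1 (s a)) ∪ (⋃ a, ent (1 + sq (t a)) (x a - s a)) ∪
        ⋃ p : T × T, ent 1 (z p.1 p.2)) := by
  classical
  let γ : T → T → ℂ := fun a a' => if corr α β a' a = 0 then 0 else 1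
  have hγ : ∀ a a', corr α β a' a * γ a a' = corr α β a' a := by
    intro a a'
    simp only [γ]
    split_ifs with hc <;> simp [hc]
  let z' : T → T → M := fun a a' => z a a' + γ a a' • s a
  let u : R → M := fun r => ∑ a, β r a • s a
  obtain ⟨S1, i1, r1, k1⟩ := phase S ((g + 1) * E + A)
    (fun p : T × T => ent (1 + sq (t p.2)) (z' p.1 p.2)) (by
      rintro ⟨a, a'⟩
      by_cases hc : corr α β a' a = 0
      · have e : z' a a' = z a a' := by simp [z', γ, hc]
        simp only [e]
        exact ((h.path (hd.one_add a') (zero_add _).symm _).mono_left (hz a a')).mono_num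
          (by omega)
      · have p1 := (h.path (SumSq.sq (t a)) (zero_add _).symm (z a a')).mono_left (hz a a')
        have p2 := p1.trans (h.add1 (B := sq (t a)) (a := z a a') (b := s a) (c := γ a a')
          (subset_union_right.trans (subset_insert _ _)) fun _ => (hs a).trans subset_union_left)
        have p3 := p2.trans' (h.path (hd.good a' a hc) (B' := 1 + sq (t a')) (by
          rw [add_right_comm]; exact m2_cancel _ _) (z' a a'))
        exact p3.mono_num (le_of_eq (by ring)))
  obtain ⟨S2, i2, r2, k2⟩ := phase S1 ((g + 1) * E) (fun a : T => ent 1 (s a)) fun a =>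
    (h.path (hd.one_add a) (m2_cancel _ _) _).mono_left ((hs a).trans i1)
  obtain ⟨S3, i3, r3, k3⟩ := phase S2 (Fintype.card T * A + (g + 2) * E)
    (fun r : R => ent 0 (u r)) fun r =>
      (h.comb0 fun a _ => k2 a).trans' (h.path hd.one (add_self_mat _).symm _)
  obtain ⟨S4, i4, r4, k4⟩ := phase S3
    (Fintype.card R * A + Fintype.card T * A + (g + 1) * E + Fintype.card T * A)
    (fun a' : T => ent (1 + sq (t a')) (x a' - s a')) fun a' => by
      have p1 := h.comb (S := S3) (a := x a') (c := fun r => -α a' r) (b := u)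
        ((hx a').trans (i1.trans (i2.trans i3))) fun r _ => k3 r
      have p2 := p1.trans (h.comb (c := fun a => -corr α β a' a) (b := fun a => z a a')
        subset_union_right fun a _ => ((hz a a').trans (i1.trans (i2.trans i3))).trans
          subset_union_left)
      have p3 := p2.trans' (h.path (hd.one_add a') (zero_add _).symm _)
      have p4 := p3.trans (h.comb (c := fun a => corr α β a' a) (b := fun a => z' a a')
        subset_union_right fun a _ => ((k1 (a, a')).trans (i2.trans i3)).trans subset_union_left)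
      have e : x a' + ∑ r, -α a' r • u r + ∑ a, -corr α β a' a • z a a' +
          ∑ a, corr α β a' a • z' a a' = x a' - s a' := by
        simp only [z', smul_add, smul_smul, hγ, Finset.sum_add_distrib, neg_smul,
          Finset.sum_neg_distrib, corr_sum α β a' s, u]
        abel
      rwa [e] at p4
  obtain ⟨S5, i5, r5, k5⟩ := phase S4 (E + A) (fun p : T × T => ent 1 (z p.1 p.2)) (by
    rintro ⟨a, a'⟩
    have p1 := (h.path (SumSq.sq (t a')) (B := 1 + sq (t a')) (B' := 1) (by
      rw [add_assoc, sq, add_self_mat, add_zero]) (z' a a')).mono_left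
        ((k1 (a, a')).trans (i2.trans (i3.trans i4)))
    have p2 := p1.trans (h.add1 (B := 1) (a := z' a a') (b := s a) (c := -γ a a')
      (subset_union_right.trans (subset_insert _ _))
      fun _ => ((k2 a).trans (i3.trans i4)).trans subset_union_left)
    have e : z' a a' + -γ a a' • s a = z a a' := by simp [z']
    rw [e, one_mul] at p2
    exact p2)
  refine ((r1.trans' (r2.trans' (r3.trans' (r4.trans' r5)))).mono_right ?_).mono_num ?_
  · refine union_subset (union_subset (iUnion_subset fun a => ?_) (iUnion_subset fun a => ?_))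
      (iUnion_subset k5)
    · exact (k2 a).trans (i3.trans (i4.trans i5))
    · exact (k4 a).trans i5
  · simp only [stE, stA, Fintype.card_prod]
    exact le_of_eq (by ring)

theorem stageB (h : IsSys ent E A) (hd : IsDesign t α β g) (y s : T → M) (w : T → T → M)
    (S : Set V) (hy : ∀ a, ent 0 (y a) ⊆ S) (hs : ∀ a, ent (sq (t a)) (s a) ⊆ S)
    (hw : ∀ a a', ent 0 (w a a') ⊆ S) :
    Reach S (stE (Fintype.card T) (Fintype.card R) g * E + stA (Fintype.card T) (Fintype.card R) * A)
      ((⋃ a, ent 1 (s a - y a)) ∪ (⋃ a, ent (1 + sq (t a)) (y a)) ∪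
        ⋃ p : T × T, ent 1 (w p.1 p.2)) := by
  classical
  let γ : T → T → ℂ := fun b b' => if corr α β b b' = 0 then 0 else 1
  have hγ : ∀ b b', corr α β b b' * γ b b' = corr α β b b' := by
    intro b b'
    simp only [γ]
    split_ifs with hc <;> simp [hc]
  let w' : T → T → M := fun b b' => w b b' + γ b b' • y b'
  let u : R → M := fun r => ∑ b, β r b • y b
  let s' : T → M := fun b => s b + ∑ b', corr α β b b' • w' b b'
  obtain ⟨S1, i1, r1, k1⟩ := phase S (A + (g + 1) * E)
    (fun p : T × T => (if corr α β p.1 p.2 = 0 then ∅ else ent (sq (t p.1)) (w' p.1 p.2)) ∪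
      ent (1 + sq (t p.2)) (w' p.1 p.2)) (by
      rintro ⟨b, b'⟩
      have p1 := h.add1 (S := S) (B := 0) (a := w b b') (b := y b') (c := γ b b')
        ((hw b b').trans (subset_insert _ _)) fun _ => hy b'
      by_cases hc : corr α β b b' = 0
      · simp only [hc, if_true, empty_union]
        exact p1.trans' (h.path (hd.one_add b') (zero_add _).symm _)
      · simp only [hc, if_false]
        have p2 := p1.trans' (h.path (SumSq.sq (t b)) (zero_add _).symm (w' b b'))
        have p3 := p2.trans' (h.path (hd.good b b' hc) (B := sq (t b)) (B' := 1 + sq (t b'))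
          (m2_cancel _ _) (w' b b')).keep
        exact p3.mono_num (le_of_eq (by ring)))
  have k1a : ∀ b b', corr α β b b' ≠ 0 → ent (sq (t b)) (w' b b') ⊆ S1 := fun b b' hc => by
    have := subset_union_left.trans (k1 (b, b'))
    simpa only [hc, if_false] using this
  have k1b : ∀ b b', ent (1 + sq (t b')) (w' b b') ⊆ S1 := fun b b' =>
    subset_union_right.trans (k1 (b, b'))
  obtain ⟨S2, i2, r2, k2⟩ := phase S1 (Fintype.card T * A + (g + 1) * E)
    (fun b : T => ent 1 (s' b)) fun b =>
      (h.comb ((hs b).trans i1) (k1a b)).trans' (h.path (hd.one_add b) (m2_cancel _ _) _)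
  obtain ⟨S3, i3, r3, k3⟩ := phase S2 (Fintype.card T * A + (g + 2) * E)
    (fun r : R => ent 1 (u r)) fun r =>
      (h.comb0 fun b _ => (hy b).trans (i1.trans i2)).trans' (h.path hd.one (zero_add _).symm _)
  obtain ⟨S4, i4, r4, k4⟩ := phase S3 ((g + 1) * E)
    (fun b : T => ent (1 + sq (t b)) (y b)) fun b =>
      (h.path (hd.one_add b) (zero_add _).symm _).mono_left
        ((hy b).trans (i1.trans (i2.trans i3)))
  obtain ⟨S5, i5, r5, k5⟩ := phase S4 (A + E) (fun p : T × T => ent 1 (w p.1 p.2)) (by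
    rintro ⟨b, b'⟩
    have p1 := h.add1 (S := S4) (B := 1 + sq (t b')) (a := w' b b') (b := y b') (c := -γ b b')
      (((k1b b b').trans (i2.trans (i3.trans i4))).trans (subset_insert _ _)) fun _ => k4 b'
    have e : w' b b' + -γ b b' • y b' = w b b' := by simp [w']
    rw [e] at p1
    have p2 := p1.trans' (h.path (SumSq.sq (t b')) (B := 1 + sq (t b')) (B' := 1) (by
      rw [add_assoc, sq, add_self_mat, add_zero]) (w b b'))
    rwa [one_mul] at p2)
  obtain ⟨S6, i6, r6, k6⟩ := phase S5 (Fintype.card T * A + Fintype.card R * A)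
    (fun b : T => ent 1 (s b - y b)) fun b => by
      have p1 := h.comb (S := S5) (a := s' b) (c := fun b' => -corr α β b b') (b := w b)
        ((k2 b).trans (i3.trans (i4.trans i5))) fun b' _ => k5 (b, b')
      have p2 := p1.trans (h.comb (c := fun r => -α b r) (b := u)
        subset_union_right fun r _ => ((k3 r).trans (i4.trans i5)).trans subset_union_left)
      have e : s' b + ∑ b', -corr α β b b' • w b b' + ∑ r, -α b r • u r = s b - y b := by
        simp only [s', w', smul_add, smul_smul, hγ, Finset.sum_add_distrib, neg_smul,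
          Finset.sum_neg_distrib, corr_sum α β b y, u]
        abel
      rwa [e] at p2
  refine ((r1.trans' (r2.trans' (r3.trans' (r4.trans' (r5.trans' r6))))).mono_right ?_).mono_num ?_
  · refine union_subset (union_subset (iUnion_subset k6) (iUnion_subset fun a => ?_))
      (iUnion_subset fun p => ?_)
    · exact (k4 a).trans (i5.trans i6)
    · exact (k5 p).trans i6
  · simp only [stE, stA, Fintype.card_prod]
    exact le_of_eq (by ring)

end Stage

/-- Edge count of the network. -/
def netE (v ρ g : ℕ) : ℕ :=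
  v * v + 2 * v * stE v ρ g + 2 * (v * v * v) * ((g + 2) * (g + 1)) +
    2 * (v * v) * ((g + 1) * (g + 1))

/-- Arithmetic count of the network. -/
def netA (v ρ : ℕ) : ℕ := 2 * v * v + 2 * v * stA v ρ

theorem network {H T R M V : Type} [DecidableEq H] [DecidableEq T] [Fintype T] [Fintype R]
    [AddCommGroup M] [Module ℂ M] [AddCommGroup V] [Module ℂ V]
    {ent : Matrix (H × H) (H × H) (ZMod 2) → M → Set V} {E A : ℕ}
    {t : T → H → ZMod 2} {α : T → R → ℂ} {β : R → T → ℂ} {g : ℕ}
    (h : IsSys ent E A) (hd : IsDesign t α β g) (x y : T × T → M) (z w : T × T × T → M)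
    (S : Set V) (hx : ∀ p, ent 0 (x p) ⊆ S)
    (hy : ∀ p : T × T, ent (sq (t p.1) ⊗ₖ sq (t p.2)) (y p) ⊆ S)
    (hz : ∀ p, ent 0 (z p) ⊆ S) (hw : ∀ p, ent 0 (w p) ⊆ S) :
    Reach S (netE (Fintype.card T) (Fintype.card R) g * E +
        netA (Fintype.card T) (Fintype.card R) * A)
      ((⋃ p, ent 1 (x p)) ∪ (⋃ p : T × T, ent (1 + sq (t p.1) ⊗ₖ sq (t p.2)) (y p)) ∪
        (⋃ p, ent 1 (z p)) ∪ ⋃ p, ent 1 (w p)) := by
  have hP : ∀ a b, SumSq (sq (t a) ⊗ₖ sq (t b)) 1 := fun a b =>
    (SumSq.sq (t a)).kron (SumSq.sq (t b))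
  let s : T × T → M := fun p => y p + (1 : ℂ) • x p
  -- the clean copy
  obtain ⟨S1, i1, r1, k1⟩ := phase S (E + A)
    (fun p : T × T => ent (sq (t p.1) ⊗ₖ sq (t p.2)) (s p)) fun p => by
      have p1 := (h.path (hP p.1 p.2) (zero_add _).symm (x p)).mono_left (hx p)
      rw [one_mul] at p1
      exact p1.trans (h.add1 ((hy p).trans (subset_union_left.trans (subset_insert _ _)))
        fun _ => subset_union_right)
  -- first stage
  obtain ⟨S2, i2, r2, k2⟩ := phase S1 _ _ fun b : T =>
    stageA (h.restrict (fun B => B ⊗ₖ sq (t b)) fun B u =>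
      ⟨_, by rw [add_kronecker, sq, vecMulVec_kron]⟩) hd (fun a => x (a, b)) (fun a => s (a, b))
      (fun a a' => z (b, a, a')) S1
      (fun a => by simpa only [zero_kronecker] using (hx _).trans i1) (fun a => k1 (a, b))
      (fun a a' => by simpa only [zero_kronecker] using (hz _).trans i1)
  have k2a : ∀ a b, ent (1 ⊗ₖ sq (t b)) (s (a, b)) ⊆ S2 := fun a b =>
    ((subset_iUnion (fun a => ent (1 ⊗ₖ sq (t b)) (s (a, b))) a).trans
      (subset_union_left.trans subset_union_left)).trans (k2 b)
  have k2b : ∀ a b, ent ((1 + sq (t a)) ⊗ₖ sq (t b)) (x (a, b) - s (a, b)) ⊆ S2 := fun a b =>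
    ((subset_iUnion (fun a => ent ((1 + sq (t a)) ⊗ₖ sq (t b)) (x (a, b) - s (a, b))) a).trans
      (subset_union_right.trans subset_union_left)).trans (k2 b)
  have k2c : ∀ p : T × T × T, ent (1 ⊗ₖ sq (t p.1)) (z p) ⊆ S2 := fun p =>
    ((subset_iUnion (fun q : T × T => ent (1 ⊗ₖ sq (t p.1)) (z (p.1, q.1, q.2))) p.2).trans
      subset_union_right).trans (k2 p.1)
  -- moves between the stages
  obtain ⟨S3, i3, r3, k3⟩ := phase S2 ((g + 2) * (g + 1) * E)
    (fun p : T × T × T => ent 1 (z p)) fun p =>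
      (h.path (hd.one.kron (hd.one_add p.1)) (by
        rw [kronecker_add, one_kronecker_one]; exact m2_cancel _ _) _).mono_left (k2c p)
  obtain ⟨S4, i4, r4, k4⟩ := phase S3 ((g + 1) * (g + 1) * E + A)
    (fun p : T × T => ent ((1 + sq (t p.1)) ⊗ₖ 1) (y p)) fun p => by
      have p1 := (h.path (B' := (1 + sq (t p.1)) ⊗ₖ 1) ((hd.one_add p.1).kron (hd.one_add p.2)) (by
        rw [kronecker_add]; exact m2_cancel _ _) _).mono_left ((k2b p.1 p.2).trans i3)
      have p2 := p1.trans' (h.add1 (a := 0) (c := -1) ((h.zero _).trans (by simp))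
        fun _ => subset_refl _)
      have e : 0 + (-1 : ℂ) • (x (p.1, p.2) - s (p.1, p.2)) = y p := by simp [s]
      rwa [e] at p2
  obtain ⟨S5, i5, r5, k5⟩ := phase S4 ((g + 1) * (g + 1) * E)
    (fun p : T × T => ent ((1 + sq (t p.1)) ⊗ₖ 1 + sq (t p.1) ⊗ₖ sq (t p.2)) (s p)) fun p =>
      (h.path ((hd.one_add p.1).kron (hd.one_add p.2)) (by
        rw [kronecker_add, add_kronecker 1 (sq (t p.1)) (sq (t p.2)),
          add_left_comm ((1 + sq (t p.1)) ⊗ₖ (1 : Matrix H H (ZMod 2))), ← add_assoc,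
          add_self_mat, zero_add]) _).mono_left ((k2a p.1 p.2).trans (i3.trans i4))
  obtain ⟨S6, i6, r6, k6⟩ := phase S5 ((g + 1) * (g + 2) * E)
    (fun p : T × T × T => ent ((1 + sq (t p.1)) ⊗ₖ 1) (w p)) fun p =>
      (h.path ((hd.one_add p.1).kron hd.one) (zero_add _).symm _).mono_left
        ((hw p).trans (i1.trans (i2.trans (i3.trans (i4.trans i5)))))
  -- second stage
  have e1 : ∀ a, (1 + sq (t a)) ⊗ₖ (1 : Matrix H H (ZMod 2)) + sq (t a) ⊗ₖ 1 = 1 := fun a => by
    rw [add_kronecker, one_kronecker_one, add_assoc, add_self_mat, add_zero]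
  obtain ⟨S7, i7, r7, k7⟩ := phase S6 _ _ fun a : T =>
    stageB (h.restrict (fun B => (1 + sq (t a)) ⊗ₖ 1 + sq (t a) ⊗ₖ B) fun B u =>
      ⟨_, by rw [kronecker_add, ← add_assoc, sq.eq_1 (t a), vecMulVec_kron]⟩) hd
      (fun b => y (a, b)) (fun b => s (a, b)) (fun b b' => w (a, b, b')) S6
      (fun b => by simpa only [kronecker_zero, add_zero] using (k4 (a, b)).trans (i5.trans i6))
      (fun b => (k5 (a, b)).trans i6)
      (fun b b' => by simpa only [kronecker_zero, add_zero] using k6 (a, b, b'))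
  simp only [kronecker_add, ← add_assoc, e1] at k7
  refine ((r1.trans' (r2.trans' (r3.trans' (r4.trans' (r5.trans' (r6.trans' r7)))))).mono_right
    ?_).mono_num ?_
  · refine union_subset (union_subset (union_subset (iUnion_subset fun p => ?_)
      (iUnion_subset fun p => ?_)) (iUnion_subset fun p => ?_)) (iUnion_subset fun p => ?_)
    · have e : x p = s (p.1, p.2) - y (p.1, p.2) := by simp [s]
      rw [e]
      exact ((subset_iUnion (fun b => ent 1 (s (p.1, b) - y (p.1, b))) p.2).trans
        (subset_union_left.trans subset_union_left)).trans (k7 p.1)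
    · exact ((subset_iUnion (fun b => ent (1 + sq (t p.1) ⊗ₖ sq (t b)) (y (p.1, b))) p.2).trans
        (subset_union_right.trans subset_union_left)).trans (k7 p.1)
    · exact (k3 p).trans (i4.trans (i5.trans (i6.trans i7)))
    · exact ((subset_iUnion (fun q : T × T => ent 1 (w (p.1, q.1, q.2))) p.2).trans
        subset_union_right).trans (k7 p.1)
  · simp only [netE, netA, Fintype.card_prod]
    exact le_of_eq (by ring)

end Vale.Agent.P344
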