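import Vale.Agent.P344.Tensor

/-! Frames: convolution operators on `F_2^N` attached to symmetric matrices over `F_2`. -/

namespace Vale.Agent.P344

open Set Matrix

noncomputable def sgn (a : ZMod 2) : ℂ := if a = 0 then 1 else -1

theorem sgn_zero : sgn 0 = 1 := by simp [sgn]

theorem sgn_one : sgn 1 = -1 := by simp [sgn]

theorem zmod2_one_add_one : (1 : ZMod 2) + 1 = 0 := by decide

theorem sgn_add (a b : ZMod 2) : sgn (a + b) = sgn a * sgn b := by
  rcases zmod2_cases a with rfl | rfl <;> rcases zmod2_cases b with rfl | rfl <;>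
    simp [sgn, zmod2_one_add_one]

theorem sgn_mul_self (a : ZMod 2) : sgn a * sgn a = 1 := by
  rcases zmod2_cases a with rfl | rfl <;> simp [sgn]

theorem sgn_sum {ι : Type} (I : Finset ι) (f : ι → ZMod 2) :
    sgn (∑ i ∈ I, f i) = ∏ i ∈ I, sgn (f i) := by
  classical
  induction I using Finset.induction_on with
  | empty => simp [sgn]
  | insert a I ha ih => rw [Finset.sum_insert ha, Finset.prod_insert ha, sgn_add, ih]

theorem sum_zmod2 (f : ZMod 2 → ℂ) : ∑ t, f t = f 0 + f 1 := Fin.sum_univ_two f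

theorem add_self_zmod2 {N : Type} (x : N → ZMod 2) : x + x = 0 := by
  funext i
  exact CharTwo.add_self_eq_zero (x i)

theorem add_self_mat {N : Type} (B : Matrix N N (ZMod 2)) : B + B = 0 := by
  ext i j
  exact CharTwo.add_self_eq_zero (B i j)

variable {N : Type} [Fintype N] [DecidableEq N]

noncomputable def H2 : Matrix (ZMod 2) (ZMod 2) ℂ := fun s t => sgn (s * t)

noncomputable def Had (N : Type) [Fintype N] : Matrix (N → ZMod 2) (N → ZMod 2) ℂ :=
  fun x ξ => sgn (x ⬝ᵥ ξ)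

omit [DecidableEq N] in
theorem Had_eq : Had N = piM fun _ => H2 := by
  ext x ξ
  simp [Had, piM, H2, dotProduct, sgn_sum]

theorem H2_inv : H2 * ((1 / 2 : ℂ) • H2) = 1 := by
  ext s t
  rcases zmod2_cases s with rfl | rfl <;> rcases zmod2_cases t with rfl | rfl <;>
    norm_num [Matrix.mul_apply, sum_zmod2, H2, sgn]

theorem Had_cancel {A A' : Matrix (N → ZMod 2) (N → ZMod 2) ℂ} (h : A * Had N = A' * Had N) :
    A = A' := by
  have h1 : Had N * (piM fun _ : N => (1 / 2 : ℂ) • H2) = 1 := by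
    rw [Had_eq, piM_mul]
    simp only [H2_inv]
    exact piM_one
  rw [← Matrix.mul_one A, ← Matrix.mul_one A', ← h1, ← Matrix.mul_assoc, h, Matrix.mul_assoc]

/-- `m` is a quadratic character with bilinear form `B`. -/
def IsQ (B : Matrix N N (ZMod 2)) (m : (N → ZMod 2) → ℂ) : Prop :=
  m 0 = 1 ∧ ∀ ξ η, m (ξ + η) = m ξ * m η * sgn (ξ ⬝ᵥ B *ᵥ η)

omit [DecidableEq N] in
theorem IsQ.mul {B B' : Matrix N N (ZMod 2)} {m m' : (N → ZMod 2) → ℂ} (h : IsQ B m)
    (h' : IsQ B' m') : IsQ (B + B') fun ξ => m ξ * m' ξ := by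
  refine ⟨by simp [h.1, h'.1], fun ξ η => ?_⟩
  simp only [h.2, h'.2, Matrix.add_mulVec, dotProduct_add, sgn_add]
  ring

theorem IsQ.zero_form {m : (N → ZMod 2) → ℂ} (h : IsQ 0 m) :
    ∃ w : N → ZMod 2, ∀ ξ, m ξ = sgn (w ⬝ᵥ ξ) := by
  have hadd : ∀ ξ η, m (ξ + η) = m ξ * m η := fun ξ η => by simp [h.2, sgn_zero]
  have hsum : ∀ (I : Finset N) (f : N → N → ZMod 2), m (∑ i ∈ I, f i) = ∏ i ∈ I, m (f i) := by
    intro I f
    induction I using Finset.induction_on with
    | empty => simp [h.1]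
    | insert a I ha ih => rw [Finset.sum_insert ha, Finset.prod_insert ha, hadd, ih]
  refine ⟨fun a => if m (Pi.single a 1) = 1 then 0 else 1, fun ξ => ?_⟩
  conv_lhs => rw [← Finset.univ_sum_single ξ]
  rw [hsum, dotProduct, sgn_sum]
  refine Finset.prod_congr rfl fun a _ => ?_
  rcases zmod2_cases (ξ a) with h0 | h0
  · simp [h0, h.1, sgn_zero]
  · rw [h0]
    have h2 : m (Pi.single a 1) * m (Pi.single a 1) = 1 := by
      rw [← hadd, add_self_zmod2, h.1]
    split_ifs with h3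
    · simp [h3, sgn_zero]
    · rw [mul_one, sgn_one]
      exact (mul_self_eq_one_iff.1 h2).resolve_left h3

theorem IsQ.transfer {B : Matrix N N (ZMod 2)} {m m' : (N → ZMod 2) → ℂ} (h : IsQ B m)
    (h' : IsQ B m') : ∃ w : N → ZMod 2, ∀ ξ, m' ξ = sgn (w ⬝ᵥ ξ) * m ξ := by
  have h1 := h'.mul h
  have h2 := h.mul h
  rw [add_self_mat] at h1 h2
  obtain ⟨w1, hw1⟩ := h1.zero_form
  obtain ⟨w2, hw2⟩ := h2.zero_form
  refine ⟨w1 + w2, fun ξ => ?_⟩
  have e1 := hw1 ξ
  have e2 := hw2 ξ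
  have e3 := sgn_mul_self (w2 ⬝ᵥ ξ)
  rw [add_dotProduct, sgn_add]
  linear_combination (m ξ * sgn (w2 ⬝ᵥ ξ)) * e1 - (m' ξ * sgn (w2 ⬝ᵥ ξ)) * e2 - m' ξ * e3

/-- `A` is a convolution operator whose multiplier is a quadratic character of form `B`. -/
def IsOp (B : Matrix N N (ZMod 2)) (A : Matrix (N → ZMod 2) (N → ZMod 2) ℂ) : Prop :=
  ∃ m, IsQ B m ∧ A * Had N = Had N * diagonal m

theorem IsOp.mul {B B' : Matrix N N (ZMod 2)} {A A' : Matrix (N → ZMod 2) (N → ZMod 2) ℂ}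
    (h : IsOp B A) (h' : IsOp B' A') : IsOp (B + B') (A * A') := by
  obtain ⟨m, hm, e⟩ := h
  obtain ⟨m', hm', e'⟩ := h'
  refine ⟨_, hm.mul hm', ?_⟩
  rw [Matrix.mul_assoc, e', ← Matrix.mul_assoc, e, Matrix.mul_assoc, diagonal_mul_diagonal]

theorem IsOp.one : IsOp (0 : Matrix N N (ZMod 2)) 1 :=
  ⟨fun _ => 1, ⟨rfl, fun ξ η => by simp [sgn_zero]⟩, by simp⟩

theorem mon_mul_apply {κ ι μ : Type} [Fintype ι] [DecidableEq ι] (f : κ → ι) (d : κ → ℂ)
    (M : Matrix ι μ ℂ) (k : κ) (j : μ) : (mon f d * M) k j = d k * M (f k) j := by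
  simp [Matrix.mul_apply, mon, ite_mul]

theorem lay_mul_apply {J μ : Type} [Fintype J] [DecidableEq J] (σ : J → J)
    (M : Matrix J μ ℂ) (k : J) (j : μ) : (lay σ * M) k j = al * M k j + be * M (σ k) j := by
  simp [Matrix.mul_apply, lay, ite_mul, add_mul, Finset.sum_add_distrib]

theorem IsOp.transfer {B : Matrix N N (ZMod 2)} {A A' : Matrix (N → ZMod 2) (N → ZMod 2) ℂ}
    (h : IsOp B A) (h' : IsOp B A') : ∃ w : N → ZMod 2, A' = mon (· + w) (fun _ => 1) * A := by
  obtain ⟨m, hm, e⟩ := h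
  obtain ⟨m', hm', e'⟩ := h'
  obtain ⟨w, hw⟩ := hm.transfer hm'
  refine ⟨w, Had_cancel ?_⟩
  rw [Matrix.mul_assoc, e, e']
  ext x ξ
  rw [mon_mul_apply]
  simp only [Matrix.mul_diagonal, Had, add_dotProduct, sgn_add, hw]
  ring

theorem mu_add (s t : ZMod 2) :
    al + be * sgn (s + t) = (al + be * sgn s) * (al + be * sgn t) * sgn (s * t) := by
  have h1 := al_add_be
  have h2 := al_sub_be
  have h3 := Complex.I_mul_I
  rcases zmod2_cases s with rfl | rfl <;> rcases zmod2_cases t with rfl | rfl <;>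
    simp only [add_zero, zero_add, mul_zero, mul_one, zmod2_one_add_one, sgn_zero,
      sgn_one, mul_neg, ← sub_eq_add_neg, h1, h2, h3] <;> simp

theorem IsOp.lay (u : N → ZMod 2) : IsOp (vecMulVec u u) (lay (· + u)) := by
  refine ⟨fun ξ => al + be * sgn (u ⬝ᵥ ξ), ⟨by simp [sgn_zero, al_add_be], fun ξ η => ?_⟩, ?_⟩
  · have : ξ ⬝ᵥ vecMulVec u u *ᵥ η = (u ⬝ᵥ ξ) * (u ⬝ᵥ η) := by
      simp only [dotProduct, Matrix.mulVec, vecMulVec_apply, Finset.mul_sum, Finset.sum_mul]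
      rw [Finset.sum_comm]
      refine Finset.sum_congr rfl fun i _ => Finset.sum_congr rfl fun j _ => by ring
    simp only [dotProduct_add, this, mu_add]
  · ext x ξ
    rw [lay_mul_apply]
    simp only [Matrix.mul_diagonal, Had, add_dotProduct, sgn_add]
    ring

theorem IsOp.cpow : IsOp (1 : Matrix N N (ZMod 2)) (Cpow N) := by
  refine ⟨fun ξ => ∏ a, (al + be * sgn (ξ a)), ⟨by simp [sgn_zero, al_add_be], fun ξ η => ?_⟩, ?_⟩
  · simp only [Matrix.one_mulVec, dotProduct, sgn_sum, Pi.add_apply, mu_add,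
      Finset.prod_mul_distrib]
  · rw [Had_eq, Cpow, piM_mul]
    ext x ξ
    simp only [Matrix.mul_diagonal, piM, ← Finset.prod_mul_distrib]
    refine Finset.prod_congr rfl fun a _ => ?_
    rw [Cm, lay_mul_apply]
    simp only [H2, add_mul, sgn_add, one_mul]
    ring

section Ent

variable {K : Type} [Fintype K] [DecidableEq K] {V : Type} [AddCommGroup V] [Module ℂ V]

/-- The `K`-fold tensor power of an operator. -/
noncomputable def hat (K : Type) [Fintype K] (A : Matrix (N → ZMod 2) (N → ZMod 2) ℂ) :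
    Matrix (K → N → ZMod 2) (K → N → ZMod 2) ℂ := piM fun _ => A

theorem hat_mul (A A' : Matrix (N → ZMod 2) (N → ZMod 2) ℂ) :
    hat K (A * A') = hat K A * hat K A' := (piM_mul _ _).symm

/-- The entries of the array `ℓ` seen in the frame `B`. -/
def Ent (B : Matrix N N (ZMod 2)) (ℓ : (K → N → ZMod 2) → V) : Set V :=
  {v | ∃ A, IsOp B A ∧ v ∈ range (app (hat K A) ℓ)}

theorem Ent_eq {B : Matrix N N (ZMod 2)} {A : Matrix (N → ZMod 2) (N → ZMod 2) ℂ}
    (h : IsOp B A) (ℓ : (K → N → ZMod 2) → V) : Ent B ℓ = range (app (hat K A) ℓ) := by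
  refine Subset.antisymm ?_ fun v hv => ⟨A, h, hv⟩
  rintro _ ⟨A', h', x, rfl⟩
  obtain ⟨w, rfl⟩ := h.transfer h'
  rw [hat_mul, app_mul, hat.eq_1 K (mon _ _), piM_mon, app_mon]
  simp

theorem Ent_zero (ℓ : (K → N → ZMod 2) → V) : Ent (0 : Matrix N N (ZMod 2)) ℓ = range ℓ := by
  rw [Ent_eq IsOp.one, hat, piM_one, app_one]

theorem Ent_shift {B B' : Matrix N N (ZMod 2)} {A A' : Matrix (N → ZMod 2) (N → ZMod 2) ℂ}
    (h : IsOp B A) (h' : IsOp B' A') (ℓ : (K → N → ZMod 2) → V) :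
    Ent B (app (hat K A') ℓ) = Ent (B + B') ℓ := by
  rw [Ent_eq h, Ent_eq (h.mul h'), hat_mul, app_mul]

end Ent

/-- An abstract system of frames: moving along an edge costs `E`, a linear update costs `A`. -/
structure IsSys {N M V : Type} [AddCommGroup M] [Module ℂ M] [AddCommGroup V] [Module ℂ V]
    (ent : Matrix N N (ZMod 2) → M → Set V) (E A : ℕ) : Prop where
  edge : ∀ B u ℓ, Reach (ent B ℓ) E (ent (B + vecMulVec u u) ℓ)
  add : ∀ B a b (c : ℂ), Reach (ent B a ∪ ent B b) A (ent B (a + c • b))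
  zero : ∀ B, ent B 0 ⊆ {0}

theorem isSys_Ent {K : Type} [Fintype K] [DecidableEq K] {V : Type} [AddCommGroup V]
    [Module ℂ V] {r τ : ℕ} (H : Fast r τ) (hK : Fintype.card K ≤ r) :
    IsSys (Ent (N := N) (K := K) (V := V)) (Fintype.card (K → N → ZMod 2) * τ)
      (Fintype.card (K → N → ZMod 2) * 2) where
  edge B u ℓ := by
    by_cases h : ∃ A', IsOp (B + vecMulVec u u) A'
    · obtain ⟨A', h'⟩ := h
      have h1 := (IsOp.lay u).mul h'
      rw [add_comm B, ← add_assoc, add_self_mat, zero_add] at h1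
      have h2 := (IsOp.lay u).mul h1
      rw [add_comm] at h2
      rw [Ent_eq h1, Ent_eq h2, hat_mul (lay _) (lay _ * A'), app_mul]
      refine H.piM_lay hK (fun _ => (· + u)) (fun _ x => ?_) V _
      simp [add_assoc, add_self_zmod2]
    · exact Reach.of_subset fun v hv => (h ⟨hv.choose, hv.choose_spec.1⟩).elim
  add B a b c := by
    by_cases h : ∃ A, IsOp B A
    · obtain ⟨A, h⟩ := h
      rw [Ent_eq h, Ent_eq h, Ent_eq h]
      refine Reach.range 2 _ fun x => ?_
      have e : app (hat K A) (a + c • b) x = app (hat K A) a x + c • app (hat K A) b x := by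
        simp [app, Finset.sum_add_distrib, Finset.smul_sum, smul_smul, mul_comm]
      rw [e]
      refine (Reach.smul (a := app (hat K A) b x)
        (Or.inr (Or.inr (mem_range_self x))) c).trans (Reach.add ?_ ?_)
      · exact Or.inr (Or.inl (Or.inl (mem_range_self x)))
      · exact Or.inr (Or.inr rfl)
    · exact Reach.of_subset fun v hv => (h ⟨hv.choose, hv.choose_spec.1⟩).elim
  zero B := by
    rintro _ ⟨A, _, x, rfl⟩
    simp [app]

end Vale.Agent.P344
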