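import Vale.Agent.P344.Defs

/-! Cost calculus for linear straight-line programs. -/

namespace Vale.Agent.P344

open Set

section Reach

variable {V : Type} [AddCommGroup V] [Module ℂ V]

/-- One gate applied to available values. -/
def Step (S : Set V) (v : V) : Prop :=
  (∃ a ∈ insert (0 : V) S, ∃ b ∈ insert (0 : V) S, v = a + b ∨ v = a - b) ∨
    ∃ a ∈ insert (0 : V) S, ∃ c : ℂ, v = c • a

/-- `Reach S s T`: all of `T` can be computed from `S` with at most `s` gates. -/
inductive Reach : Set V → ℕ → Set V → Prop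
  | done {S T : Set V} {s : ℕ} : T ⊆ insert 0 S → Reach S s T
  | step {S T : Set V} {s : ℕ} {v : V} : Step S v → Reach (insert v S) s T → Reach S (s + 1) T

theorem Step.mono {S S' : Set V} {v : V} (h : Step S v) (hS : S ⊆ insert 0 S') : Step S' v := by
  have h0 : insert (0 : V) S ⊆ insert 0 S' := insert_subset (mem_insert _ _) hS
  rcases h with ⟨a, ha, b, hb, h⟩ | ⟨a, ha, c, h⟩
  · exact Or.inl ⟨a, h0 ha, b, h0 hb, h⟩
  · exact Or.inr ⟨a, h0 ha, c, h⟩

theorem Reach.mono_left0 {S T : Set V} {s : ℕ} (h : Reach S s T) :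
    ∀ {S' : Set V}, S ⊆ insert 0 S' → Reach S' s T := by
  induction h with
  | done hT => intro S' hS; exact Reach.done (hT.trans (insert_subset (mem_insert _ _) hS))
  | step hv _ ih =>
    intro S' hS
    refine Reach.step (hv.mono hS) (ih ?_)
    rintro x (rfl | hx)
    · exact Or.inr (Or.inl rfl)
    · rcases hS hx with h | h
      · exact Or.inl h
      · exact Or.inr (Or.inr h)

theorem Reach.mono_left {S S' T : Set V} {s : ℕ} (h : Reach S s T) (hS : S ⊆ S') :
    Reach S' s T := h.mono_left0 (hS.trans (subset_insert _ _))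

theorem Reach.mono_right0 {S T : Set V} {s : ℕ} (h : Reach S s T) :
    ∀ {T' : Set V}, T' ⊆ insert 0 T → Reach S s T' := by
  induction h with
  | done hT => intro T' h; exact Reach.done (h.trans (insert_subset (mem_insert _ _) hT))
  | step hv _ ih => intro T' h; exact Reach.step hv (ih h)

theorem Reach.mono_right {S T T' : Set V} {s : ℕ} (h : Reach S s T) (hT : T' ⊆ T) :
    Reach S s T' := h.mono_right0 (hT.trans (subset_insert _ _))

theorem Reach.mono_num {S T : Set V} {s : ℕ} (h : Reach S s T) :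
    ∀ {t : ℕ}, s ≤ t → Reach S t T := by
  induction h with
  | done hT => intro t _; exact Reach.done hT
  | step hv _ ih =>
    intro t ht
    obtain ⟨t, rfl⟩ : ∃ u, t = u + 1 := ⟨t - 1, by omega⟩
    exact Reach.step hv (ih (by omega))

theorem Reach.of_subset {S T : Set V} {s : ℕ} (h : T ⊆ S) : Reach S s T :=
  Reach.done (h.trans (subset_insert _ _))

theorem Reach.trans {S T : Set V} {a : ℕ} (h : Reach S a T) :
    ∀ {U : Set V} {b : ℕ}, Reach (S ∪ T) b U → Reach S (a + b) U := by
  induction h with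
  | done hT =>
    intro U b hU
    exact (hU.mono_left0 (union_subset (subset_insert _ _) hT)).mono_num (by omega)
  | @step S T s v hv _ ih =>
    intro U b hU
    have := ih (hU.mono_left (union_subset_union_left _ (subset_insert v S)))
    rw [show s + 1 + b = s + b + 1 by omega]
    exact Reach.step hv this

theorem Reach.trans' {S T U : Set V} {a b : ℕ} (h : Reach S a T) (h' : Reach T b U) :
    Reach S (a + b) U := h.trans (h'.mono_left subset_union_right)

theorem Reach.keep {S T : Set V} {a : ℕ} (h : Reach S a T) : Reach S a (S ∪ T) := by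
  simpa using h.trans (Reach.of_subset (s := 0) (subset_refl (S ∪ T)))

theorem Reach.union {S T U : Set V} {a b : ℕ} (h : Reach S a T) (h' : Reach S b U) :
    Reach S (a + b) (T ∪ U) :=
  h.trans (((h'.mono_left subset_union_left).keep).mono_right
    (union_subset_union_left _ subset_union_right))

theorem Reach.biUnion {ι : Type*} {S : Set V} (I : Finset ι) (c : ι → ℕ) (T : ι → Set V)
    (h : ∀ i ∈ I, Reach S (c i) (T i)) : Reach S (∑ i ∈ I, c i) (⋃ i ∈ I, T i) := by
  classical
  induction I using Finset.induction_on with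
  | empty => exact Reach.of_subset (by simp)
  | insert a I ha ih =>
    rw [Finset.sum_insert ha, Finset.set_biUnion_insert]
    exact (h a (Finset.mem_insert_self _ _)).union
      (ih fun i hi => h i (Finset.mem_insert_of_mem hi))

theorem Reach.iUnion {ι : Type*} [Fintype ι] {S : Set V} (c : ι → ℕ) (T : ι → Set V)
    (h : ∀ i, Reach S (c i) (T i)) : Reach S (∑ i, c i) (⋃ i, T i) := by
  simpa using Reach.biUnion Finset.univ c T fun i _ => h i

theorem Reach.iUnion_const {ι : Type*} [Fintype ι] {S : Set V} (c : ℕ) (T : ι → Set V)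
    (h : ∀ i, Reach S c (T i)) : Reach S (Fintype.card ι * c) (⋃ i, T i) := by
  simpa using Reach.iUnion (fun _ => c) T h

theorem Reach.range {ι : Type*} [Fintype ι] {S : Set V} (c : ℕ) (y : ι → V)
    (h : ∀ i, Reach S c {y i}) : Reach S (Fintype.card ι * c) (range y) := by
  refine (Reach.iUnion_const c _ h).mono_right ?_
  rintro _ ⟨i, rfl⟩
  exact mem_iUnion.2 ⟨i, rfl⟩

theorem Reach.smul {S : Set V} {a : V} (ha : a ∈ insert 0 S) (c : ℂ) : Reach S 1 {c • a} :=
  Reach.step (Or.inr ⟨a, ha, c, rfl⟩) (Reach.of_subset (by simp))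

theorem Reach.add {S : Set V} {a b : V} (ha : a ∈ insert 0 S) (hb : b ∈ insert 0 S) :
    Reach S 1 {a + b} :=
  Reach.step (Or.inl ⟨a, ha, b, hb, Or.inl rfl⟩) (Reach.of_subset (by simp))

theorem Reach.lincomb {ι : Type*} {S : Set V} (I : Finset ι) (c : ι → ℂ) (v : ι → V)
    (h : ∀ i ∈ I, v i ∈ insert 0 S) : Reach S (2 * I.card) {∑ i ∈ I, c i • v i} := by
  classical
  induction I using Finset.induction_on with
  | empty => exact Reach.done (by simp)
  | insert a I ha ih =>
    rw [Finset.sum_insert ha, Finset.card_insert_of_notMem ha]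
    have h1 := ih fun i hi => h i (Finset.mem_insert_of_mem hi)
    have h2 := Reach.smul (h a (Finset.mem_insert_self _ _)) (c a)
    have h3 := (h1.union h2).trans' (Reach.add (a := c a • v a) (b := ∑ i ∈ I, c i • v i)
      (by simp) (by simp))
    exact h3.mono_num (by omega)

end Reach

/-- Apply a matrix to a family of vectors. -/
def app {κ ι V : Type} [Fintype ι] [AddCommGroup V] [Module ℂ V] (M : Matrix κ ι ℂ)
    (x : ι → V) : κ → V := fun k => ∑ i, M k i • x i

theorem app_mul {κ ι μ V : Type} [Fintype ι] [Fintype μ] [AddCommGroup V] [Module ℂ V]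
    (M : Matrix κ μ ℂ) (N : Matrix μ ι ℂ) (x : ι → V) : app (M * N) x = app M (app N x) := by
  funext k
  simp only [app, Matrix.mul_apply, Finset.sum_smul, Finset.smul_sum, smul_smul]
  exact Finset.sum_comm

theorem app_one {ι V : Type} [Fintype ι] [DecidableEq ι] [AddCommGroup V] [Module ℂ V]
    (x : ι → V) : app (1 : Matrix ι ι ℂ) x = x := by
  funext k
  simp [app, Matrix.one_apply]

theorem app_add_right {κ ι V : Type} [Fintype ι] [AddCommGroup V] [Module ℂ V]
    (M : Matrix κ ι ℂ) (x y : ι → V) : app M (x + y) = app M x + app M y := by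
  funext k
  simp [app, Finset.sum_add_distrib]

theorem app_sum_smul {κ ι μ V : Type} [Fintype ι] [AddCommGroup V] [Module ℂ V]
    (M : Matrix κ ι ℂ) (I : Finset μ) (c : μ → ℂ) (x : μ → ι → V) (k : κ) :
    app M (∑ a ∈ I, c a • x a) k = ∑ a ∈ I, c a • app M (x a) k := by
  simp only [app, Finset.sum_apply, Pi.smul_apply, Finset.smul_sum, smul_smul]
  rw [Finset.sum_comm]
  simp only [mul_comm]

/-- The matrix `M` can be computed with at most `s` gates. -/
def Cost {κ ι : Type} [Fintype ι] (M : Matrix κ ι ℂ) (s : ℕ) : Prop :=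
  ∀ (V : Type) [AddCommGroup V] [Module ℂ V] (x : ι → V), Reach (range x) s (range (app M x))

theorem Cost.mono {κ ι : Type} [Fintype ι] {M : Matrix κ ι ℂ} {s t : ℕ} (h : Cost M s)
    (hst : s ≤ t) : Cost M t := fun V _ _ x => (h V x).mono_num hst

theorem Cost.mul {κ ι μ : Type} [Fintype ι] [Fintype μ] {M : Matrix κ μ ℂ} {N : Matrix μ ι ℂ}
    {s t : ℕ} (hM : Cost M s) (hN : Cost N t) : Cost (M * N) (s + t) := by
  intro V _ _ x
  rw [app_mul, add_comm]
  exact (hN V x).trans' (hM V _)

theorem Cost.trivial {κ ι : Type} [Fintype ι] [Fintype κ] (M : Matrix κ ι ℂ) :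
    Cost M (Fintype.card κ * (2 * Fintype.card ι)) := by
  intro V _ _ x
  refine Reach.range _ _ fun k => ?_
  exact Reach.lincomb Finset.univ (M k) x fun i _ => Or.inr ⟨i, rfl⟩

/-- Generalized monomial matrix: row `k` is `d k` times the unit vector at `f k`. -/
def mon {κ ι : Type} [DecidableEq ι] (f : κ → ι) (d : κ → ℂ) : Matrix κ ι ℂ :=
  fun k i => if f k = i then d k else 0

theorem app_mon {κ ι V : Type} [Fintype ι] [DecidableEq ι] [AddCommGroup V] [Module ℂ V]
    (f : κ → ι) (d : κ → ℂ) (x : ι → V) (k : κ) : app (mon f d) x k = d k • x (f k) := by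
  simp [app, mon, ite_smul]

theorem Cost.mon {κ ι : Type} [Fintype ι] [Fintype κ] [DecidableEq ι] (f : κ → ι) (d : κ → ℂ) :
    Cost (mon f d) (Fintype.card κ) := by
  intro V _ _ x
  have := Reach.range (S := range x) 1 (app (P344.mon f d) x) fun k => by
    rw [app_mon]
    exact Reach.smul (Or.inr (mem_range_self (f k))) _
  simpa using this

theorem Cost.submatrix {κ κ' ι ι' : Type} [Fintype ι] [Fintype ι'] {M : Matrix κ ι ℂ} {s : ℕ}
    (h : Cost M s) (f : κ' → κ) (e : ι' ≃ ι) : Cost (M.submatrix f e) s := by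
  intro V _ _ x
  have h1 := h V (x ∘ e.symm)
  refine (h1.mono_left (range_comp_subset_range _ _)).mono_right ?_
  rintro _ ⟨k, rfl⟩
  refine ⟨f k, ?_⟩
  simp only [app, Matrix.submatrix_apply, Function.comp]
  exact (Fintype.sum_equiv e _ _ (by simp)).symm

/-- From the abstract cost to an honest circuit. -/
theorem exists_circuit_of_reach {n : ℕ} {S T : Set ((Fin n → ℂ) → ℂ)} {s : ℕ}
    (h : Reach S s T) : ∀ {s₀ : ℕ} (C : Circuit n s₀),
      (∀ f ∈ S, ∃ w, ∀ x, wireVal x (C.gateVal x) w = f x) →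
      ∃ s₁ ≤ s₀ + s, ∃ C' : Circuit n s₁, ∀ f ∈ T, ∃ w, ∀ x, wireVal x (C'.gateVal x) w = f x := by
  induction h with
  | @done S T s hT =>
    intro s₀ C hC
    refine ⟨s₀, by omega, C, fun f hf => ?_⟩
    rcases hT hf with rfl | h
    · exact ⟨Sum.inl none, fun x => rfl⟩
    · exact hC f h
  | @step S T s v hv _ ih =>
    intro s₀ C hC
    have hC0 : ∀ f ∈ insert 0 S, ∃ w, ∀ x, wireVal x (C.gateVal x) w = f x := by
      rintro f (rfl | h)
      · exact ⟨Sum.inl none, fun x => rfl⟩
      · exact hC f h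
    have key : ∃ g : Gate n s₀, ∀ x, g.eval (wireVal x (C.gateVal x)) = v x := by
      rcases hv with ⟨a, ha, b, hb, h | h⟩ | ⟨a, ha, c, h⟩
      · obtain ⟨u, hu⟩ := hC0 a ha
        obtain ⟨w, hw⟩ := hC0 b hb
        exact ⟨Gate.add u w, fun x => by simp [Gate.eval, hu, hw, h]⟩
      · obtain ⟨u, hu⟩ := hC0 a ha
        obtain ⟨w, hw⟩ := hC0 b hb
        exact ⟨Gate.sub u w, fun x => by simp [Gate.eval, hu, hw, h]⟩
      · obtain ⟨u, hu⟩ := hC0 a ha
        exact ⟨Gate.smul c u, fun x => by simp [Gate.eval, hu, h]⟩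
    obtain ⟨g, hg⟩ := key
    obtain ⟨s₁, hs₁, C', hC'⟩ := ih (C.snoc g) (by
      rintro f (rfl | h)
      · exact ⟨Sum.inr (Fin.last _), fun x => by simp [wireVal, Circuit.gateVal, hg]⟩
      · obtain ⟨w, hw⟩ := hC f h
        rcases w with (_ | k) | i
        · exact ⟨Sum.inl none, hw⟩
        · exact ⟨Sum.inl (some k), hw⟩
        · exact ⟨Sum.inr i.castSucc, fun x => by
            simpa [wireVal, Circuit.gateVal] using hw x⟩)
    exact ⟨s₁, by omega, C', hC'⟩

/-- The discrete Fourier matrix of the problem. -/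
noncomputable def dftFin (n : ℕ) : Matrix (Fin n) (Fin n) ℂ :=
  fun j k => Complex.exp (2 * Real.pi * Complex.I / n) ^ (j.val * k.val)

theorem computesDFT_of_cost {n s : ℕ} (h : Cost (dftFin n) s) : ∃ t ≤ s, ComputesDFT n t := by
  have h1 := h ((Fin n → ℂ) → ℂ) (fun k x => x k)
  obtain ⟨t, ht, C, hC⟩ := exists_circuit_of_reach h1 Circuit.nil (by
    rintro _ ⟨k, rfl⟩
    exact ⟨Sum.inl (some k), fun x => rfl⟩)
  refine ⟨t, by omega, C, ?_⟩
  choose out hout using fun j => hC _ ⟨j, rfl⟩
  refine ⟨out, fun x j => ?_⟩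
  rw [hout]
  simp [app, dftFin]

end Vale.Agent.P344
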