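import Vale.Agent.P344.Design

/-! The recursion: tensor powers of `Cm` cost `O(k ^ γ)` gates per entry with `γ < 1`. -/

namespace Vale.Agent.P344

open Set Matrix
open scoped Kronecker

theorem BCost.submatrix {μ κ κ' ι ι' : Type} [Fintype ι] [Fintype ι'] {M : Matrix κ ι ℂ} {s : ℕ}
    (h : BCost μ M s) (f : κ' → κ) (e : ι' ≃ ι) : BCost μ (M.submatrix f e) s := by
  intro V _ _ x
  have h1 := h V fun a => x a ∘ e.symm
  refine (h1.mono_left (iUnion_mono fun a => range_comp_subset_range _ _)).mono_right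
    (iUnion_mono fun a => ?_)
  rintro _ ⟨k, rfl⟩
  refine ⟨f k, ?_⟩
  simp only [app, Matrix.submatrix_apply, Function.comp]
  exact (Fintype.sum_equiv e _ _ (by simp)).symm

theorem BCost.sum {μ ν κ ι : Type} [Fintype ι] {M : Matrix κ ι ℂ} {s t : ℕ}
    (h : BCost μ M s) (h' : BCost ν M t) : BCost (μ ⊕ ν) M (s + t) := by
  intro V _ _ x
  rw [iUnion_sum, iUnion_sum]
  exact ((h V _).mono_left subset_union_left).union ((h' V _).mono_left subset_union_right)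

section

variable {K : Type} [Fintype K] [DecidableEq K] {r τ : ℕ}

theorem cost_direct {N : Type} [Fintype N] [DecidableEq N] (H : Fast r τ)
    (hK : Fintype.card K ≤ r) :
    Cost (hat K (Cpow N)) (Fintype.card N * (Fintype.card (K → N → ZMod 2) * τ)) := by
  intro V _ _ x
  have := (isSys_Ent (N := N) (V := V) H hK).path sumSq_one (zero_add 1).symm x
  rwa [Ent_zero, Ent_eq IsOp.cpow] at this

theorem bcost_net {H T R : Type} [Fintype H] [DecidableEq H] [DecidableEq T] [Fintype T]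
    [Fintype R] {t : T → H → ZMod 2} {α : T → R → ℂ} {β : R → T → ℂ} {g : ℕ}
    (hd : IsDesign t α β g) (HF : Fast r τ) (hK : Fintype.card K ≤ r) :
    BCost (((T × T) ⊕ (T × T)) ⊕ ((T × T × T) ⊕ (T × T × T))) (hat K (Cpow (H × H)))
      (netE (Fintype.card T) (Fintype.card R) g * (Fintype.card (K → H × H → ZMod 2) * τ) +
        netA (Fintype.card T) (Fintype.card R) * (Fintype.card (K → H × H → ZMod 2) * 2)) := by
  intro V _ _ x
  have hop : ∀ p : T × T, IsOp (sq (t p.1) ⊗ₖ sq (t p.2))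
      (lay (· + fun q : H × H => t p.1 q.1 * t p.2 q.2)) := fun p => by
    rw [sq, sq, vecMulVec_kron]
    exact IsOp.lay _
  have hsub : ∀ a, range (x a) ⊆ ⋃ a, range (x a) := subset_iUnion fun a => range (x a)
  have h1 := network (isSys_Ent (N := H × H) (V := V) HF hK) hd
    (fun p => x (Sum.inl (Sum.inl p)))
    (fun p => app (hat K (lay (· + fun q : H × H => t p.1 q.1 * t p.2 q.2)))
      (x (Sum.inl (Sum.inr p))))
    (fun p => x (Sum.inr (Sum.inl p))) (fun p => x (Sum.inr (Sum.inr p))) (⋃ a, range (x a))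
    (fun p => by rw [Ent_zero]; exact hsub _)
    (fun p => by rw [Ent_shift (hop p) (hop p), add_self_mat, Ent_zero]; exact hsub _)
    (fun p => by rw [Ent_zero]; exact hsub _) (fun p => by rw [Ent_zero]; exact hsub _)
  refine h1.mono_right (iUnion_subset ?_)
  rintro ((p | p) | (p | p))
  · rw [← Ent_eq IsOp.cpow]
    exact (subset_iUnion (fun p => Ent 1 (x (Sum.inl (Sum.inl p)))) p).trans
      (subset_union_left.trans (subset_union_left.trans subset_union_left))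
  · refine Subset.trans ?_
      (subset_union_right.trans (subset_union_left.trans subset_union_left))
    refine Subset.trans ?_ (subset_iUnion _ p)
    rw [Ent_shift (IsOp.cpow.mul (hop p)) (hop p), add_assoc, add_self_mat, add_zero,
      Ent_eq IsOp.cpow]
  · rw [← Ent_eq IsOp.cpow]
    exact (subset_iUnion (fun p => Ent 1 (x (Sum.inr (Sum.inl p)))) p).trans
      (subset_union_right.trans subset_union_left)
  · rw [← Ent_eq IsOp.cpow]
    exact (subset_iUnion (fun p => Ent 1 (x (Sum.inr (Sum.inr p)))) p).trans subset_union_right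

/-- A batch of `2 ^ 31` registers with the saving. -/
theorem bcost_tri (HF : Fast r τ) (hK : Fintype.card K ≤ r) :
    BCost (Fin (2 ^ 31)) (hat K (Cpow (Fin 19 × Fin 19)))
      (Fintype.card (K → Fin 19 × Fin 19 → ZMod 2) *
        ((361 * 2 ^ 31 - 239343) * τ + 2 * netA 969 19)) := by
  have h1 := bcost_net isDesign_tri HF hK
  have h2 := (cost_direct (N := Fin 19 × Fin 19) HF hK).batch (Fin 325899308)
  have h3 := (h1.sum h2).groups (Fin (2 ^ 31)) 1 (by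
    simp only [Fintype.card_sum, Fintype.card_prod, card_Tri, Fintype.card_fin]
    norm_num)
  refine h3.mono (le_of_eq ?_)
  simp only [Fintype.card_prod, card_Tri, Fintype.card_fin]
  generalize Fintype.card (K → Fin 19 × Fin 19 → ZMod 2) = Ω
  generalize netA 969 19 = a
  norm_num [netE, stE]
  ring

end

/-- One step of the recursion. -/
theorem cost_step {k τ j : ℕ} (HF : Fast k τ) (S : Type) [Fintype S] [DecidableEq S]
    (hS : Fintype.card S = 361 * k + (31 + j)) :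
    Cost (Cpow S) (2 ^ (361 * k) * (2 ^ (31 + j) * (2 * 2 ^ (31 + j))) +
      2 ^ j * (2 ^ (361 * k) * ((361 * 2 ^ 31 - 239343) * τ + 2 * netA 969 19))) := by
  obtain ⟨e⟩ : Nonempty (S ≃ (Fin k × (Fin 19 × Fin 19)) ⊕ Fin (31 + j)) :=
    Fintype.card_eq.1 (by simp [hS, mul_comm])
  rw [Cpow_equiv e, Cpow_sum]
  refine (Cost.submatrix ?_ _ _).submatrix _ _
  have h1 := ((bcost_tri (K := Fin k) HF (by simp)).groups (Fin (31 + j) → ZMod 2) (2 ^ j) (by
    simp [pow_add, mul_comm])).submatrix (Equiv.curry _ _ _) (Equiv.curry _ _ _)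
  rw [hat, ← Cpow_prod] at h1
  have h2 := (Cost.trivial (Cpow (Fin (31 + j)))).batch (Fin k × (Fin 19 × Fin 19) → ZMod 2)
  refine (Cost.kron h1 h2).mono (le_of_eq ?_)
  simp only [Fintype.card_fun, Fintype.card_prod, Fintype.card_fin, ZMod.card, ← pow_mul]
  norm_num [mul_comm k]

noncomputable def γ₀ : ℝ := 1 - 5 / 10 ^ 8

theorem gap_pos : ((361 * 2 ^ 31 - 239343 : ℕ) : ℝ) / 2 ^ 31 < (361 : ℝ) ^ γ₀ := by
  have hlog : Real.log 361 ≤ 6 := by
    rw [Real.log_le_iff_le_exp (by norm_num)]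
    have h1 := Real.exp_one_gt_d9
    have h2 : Real.exp 6 = Real.exp 1 ^ 6 := by rw [← Real.exp_nat_mul]; norm_num
    rw [h2]
    calc (361 : ℝ) ≤ 2.7182818283 ^ 6 := by norm_num
      _ ≤ Real.exp 1 ^ 6 := by gcongr
  have h3 : (361 : ℝ) ^ γ₀ = 361 * Real.exp (-(Real.log 361 * (5 / 10 ^ 8))) := by
    rw [γ₀, Real.rpow_sub (by norm_num), Real.rpow_one, Real.rpow_def_of_pos (by norm_num),
      Real.exp_neg, div_eq_mul_inv]
  have h4 := Real.add_one_le_exp (-(Real.log 361 * (5 / 10 ^ 8)))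
  rw [h3]
  norm_num at h4 ⊢
  nlinarith

theorem fast_of_bound {K : ℝ} (hK : 0 ≤ K) {r : ℕ}
    (h : ∀ m ≤ r, ∀ (S : Type) [Fintype S] [DecidableEq S], Fintype.card S = m →
      ∃ s : ℕ, Cost (Cpow S) s ∧ (s : ℝ) ≤ 2 ^ m * (K * ((m : ℝ) + 1) ^ γ₀)) :
    Fast r ⌈K * ((r : ℝ) + 1) ^ γ₀⌉₊ := by
  intro S _ _ hS
  obtain ⟨s, hs, hle⟩ := h _ hS S rfl
  refine hs.mono ?_
  have h1 : (s : ℝ) ≤ 2 ^ Fintype.card S * ⌈K * ((r : ℝ) + 1) ^ γ₀⌉₊ := by
    refine hle.trans ?_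
    gcongr
    refine le_trans ?_ (Nat.le_ceil _)
    have : (0 : ℝ) ≤ γ₀ := by norm_num [γ₀]
    gcongr
  exact_mod_cast h1

theorem exists_bound : ∃ K : ℝ, 0 ≤ K ∧ ∀ m, ∀ (S : Type) [Fintype S] [DecidableEq S],
    Fintype.card S = m →
      ∃ s : ℕ, Cost (Cpow S) s ∧ (s : ℝ) ≤ 2 ^ m * (K * ((m : ℝ) + 1) ^ γ₀) := by
  have hγ : (0 : ℝ) ≤ γ₀ := by norm_num [γ₀]
  obtain ⟨c, hc⟩ : ∃ c : ℕ, c = 361 * 2 ^ 31 - 239343 := ⟨_, rfl⟩
  obtain ⟨a, ha⟩ : ∃ a : ℕ, a = 2 * netA 969 19 := ⟨_, rfl⟩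
  obtain ⟨θ, hθ⟩ : ∃ θ : ℝ, θ = (c : ℝ) / 2 ^ 31 := ⟨_, rfl⟩
  have hgap : θ < (361 : ℝ) ^ γ₀ := by rw [hθ, hc]; exact gap_pos
  have hθ0 : 0 ≤ θ := by rw [hθ]; positivity
  obtain ⟨η, hη⟩ : ∃ η : ℝ, η = (361 : ℝ) ^ γ₀ - θ := ⟨_, rfl⟩
  have hη0 : 0 < η := by rw [hη]; linarith
  obtain ⟨b, hb⟩ : ∃ b : ℝ, b = 2 * 2 ^ (31 + 722) := ⟨_, rfl⟩
  have hb0 : 0 ≤ b := by rw [hb]; positivity
  obtain ⟨K, hK⟩ : ∃ K : ℝ, K = (θ + a / 2 ^ 31 + b) / η + b := ⟨_, rfl⟩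
  have hK0 : 0 ≤ (θ + a / 2 ^ 31 + b) / η := by positivity
  have hKb : b ≤ K := by linarith
  have hKη : θ + a / 2 ^ 31 + b ≤ K * η := by
    rw [hK, add_mul, div_mul_cancel₀ _ hη0.ne']
    have := mul_nonneg hb0 hη0.le
    linarith
  have hK1 : 0 ≤ K := hb0.trans hKb
  refine ⟨K, hK1, fun m => ?_⟩
  induction m using Nat.strong_induction_on with
  | _ m ih =>
  intro S _ _ hS
  have hpow : ∀ i : ℕ, i ≤ 31 + 722 → (2 : ℝ) * 2 ^ i ≤ b := fun i hi => by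
    rw [hb]
    gcongr
    norm_num
  have hone : ∀ x : ℝ, 0 ≤ x → (1 : ℝ) ≤ (x + 1) ^ γ₀ := fun x hx =>
    Real.one_le_rpow (by linarith) hγ
  by_cases hm : m < 31 + 361
  · refine ⟨_, Cost.trivial _, ?_⟩
    simp only [Fintype.card_fun, ZMod.card, hS]
    push_cast
    refine mul_le_mul_of_nonneg_left ?_ (by positivity)
    calc (2 : ℝ) * 2 ^ m ≤ b := hpow m (by omega)
      _ ≤ K * 1 := by linarith
      _ ≤ K * ((m : ℝ) + 1) ^ γ₀ := by gcongr; exact hone _ (Nat.cast_nonneg m)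
  · obtain ⟨k, j, hj1, hj2, rfl⟩ : ∃ k j, 361 ≤ j ∧ j < 722 ∧ m = 361 * k + (31 + j) :=
      ⟨(m - 392) / 361, m - 31 - 361 * ((m - 392) / 361), by omega, by omega, by omega⟩
    have HF : Fast k ⌈K * ((k : ℝ) + 1) ^ γ₀⌉₊ :=
      fast_of_bound hK1 fun m' hm' => ih m' (by omega)
    have hcost := cost_step HF S hS
    rw [← hc, ← ha] at hcost
    refine ⟨_, hcost, ?_⟩
    obtain ⟨τ, hτ⟩ : ∃ τ : ℕ, τ = ⌈K * ((k : ℝ) + 1) ^ γ₀⌉₊ := ⟨_, rfl⟩
    rw [← hτ]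
    obtain ⟨X, hX⟩ : ∃ X : ℝ, X = ((k : ℝ) + 1) ^ γ₀ := ⟨_, rfl⟩
    have hX1 : 1 ≤ X := hX ▸ hone _ (Nat.cast_nonneg k)
    have hτ1 : (τ : ℝ) ≤ K * X + 1 := by
      rw [hτ, hX]
      exact (Nat.ceil_lt_add_one (by positivity)).le
    have e : ((2 ^ (361 * k) * (2 ^ (31 + j) * (2 * 2 ^ (31 + j))) +
        2 ^ j * (2 ^ (361 * k) * (c * τ + a)) : ℕ) : ℝ) =
        2 ^ (361 * k + (31 + j)) * (2 * 2 ^ (31 + j) + θ * τ + a / 2 ^ 31) := by
      rw [hθ]
      push_cast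
      rw [pow_add (2 : ℝ) (361 * k), pow_add (2 : ℝ) 31 j]
      field_simp
      ring
    rw [e]
    gcongr
    have h1 : (361 : ℝ) ^ γ₀ * X ≤ (((361 * k + (31 + j) : ℕ) : ℝ) + 1) ^ γ₀ := by
      rw [hX, ← Real.mul_rpow (by norm_num) (by positivity)]
      gcongr
      have : (361 : ℝ) ≤ j := by exact_mod_cast hj1
      push_cast
      linarith
    have h2 := hpow (31 + j) (by omega)
    have h3 : θ * τ ≤ θ * (K * X + 1) := by gcongr
    have h4 : K * η * 1 ≤ K * η * X := by gcongr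
    have h5 : K * ((361 : ℝ) ^ γ₀ * X) = K * η * X + θ * (K * X) := by rw [hη]; ring
    calc 2 * 2 ^ (31 + j) + θ * τ + a / 2 ^ 31 ≤ K * ((361 : ℝ) ^ γ₀ * X) := by
          rw [h5]; linarith
      _ ≤ _ := by gcongr

theorem exists_fast : ∃ K : ℝ, 0 ≤ K ∧ ∀ r : ℕ, Fast r ⌈K * ((r : ℝ) + 1) ^ γ₀⌉₊ := by
  obtain ⟨K, hK, h⟩ := exists_bound
  exact ⟨K, hK, fun r => fast_of_bound hK fun m _ => h m⟩

end Vale.Agent.P344
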